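import Mathlib

/-!
Abstract measure-theoretic part of the three-marginal counterexample (row 130).
-/

open MeasureTheory Set Filter Topology
open scoped ENNReal

namespace Crest.Agent.R130

variable {E : Type*} [MeasurableSpace E]

/-- The data of a five-region configuration. -/
structure Data (E : Type*) [MeasurableSpace E] where
  ν : Measure E
  B : Set E
  f2 : E → E
  f3 : E → E
  f4 : E → E
  f5 : E → E
  g2 : E → E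
  g3 : E → E
  g4 : E → E
  g5 : E → E
  A1 : Set E
  A2 : Set E
  A3 : Set E
  A4 : Set E
  A5 : Set E
  c : E × E × E → ℝ≥0∞
  u : E → ℝ≥0∞
  prob : IsProbabilityMeasure ν
  mB : MeasurableSet B
  aeB : ∀ᵐ x ∂ν, x ∈ B
  mf2 : Measurable f2
  mf3 : Measurable f3
  mf4 : Measurable f4
  mf5 : Measurable f5
  mg2 : Measurable g2
  mg3 : Measurable g3
  mg4 : Measurable g4
  mg5 : Measurable g5
  mI2 : MeasurableSet (f2 '' B)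
  mI3 : MeasurableSet (f3 '' B)
  mI4 : MeasurableSet (f4 '' B)
  mI5 : MeasurableSet (f5 '' B)
  gf2 : ∀ x ∈ B, g2 (f2 x) = x
  gf3 : ∀ x ∈ B, g3 (f3 x) = x
  gf4 : ∀ x ∈ B, g4 (f4 x) = x
  gf5 : ∀ x ∈ B, g5 (f5 x) = x
  mA1 : MeasurableSet A1
  mA2 : MeasurableSet A2
  mA3 : MeasurableSet A3
  mA4 : MeasurableSet A4
  mA5 : MeasurableSet A5
  h1 : ∀ x ∈ B, x ∈ A1
  h2 : ∀ x ∈ B, f2 x ∈ A2
  h3 : ∀ x ∈ B, f3 x ∈ A3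
  h4 : ∀ x ∈ B, f4 x ∈ A4
  h5 : ∀ x ∈ B, f5 x ∈ A5
  d12 : ∀ x ∈ A1, x ∉ A2
  d13 : ∀ x ∈ A1, x ∉ A3
  d14 : ∀ x ∈ A1, x ∉ A4
  d15 : ∀ x ∈ A1, x ∉ A5
  d23 : ∀ x ∈ A2, x ∉ A3
  d24 : ∀ x ∈ A2, x ∉ A4
  d25 : ∀ x ∈ A2, x ∉ A5
  d34 : ∀ x ∈ A3, x ∉ A4
  d35 : ∀ x ∈ A3, x ∉ A5
  d45 : ∀ x ∈ A4, x ∉ A5
  mc : Measurable c
  mu : Measurable u
  ccyc : ∀ x y z, c (y, z, x) = c (x, y, z)
  cswap : ∀ x y z, c (x, z, y) = c (x, y, z)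
  ineq : ∀ x ∈ B ∪ f2 '' B ∪ f3 '' B ∪ f4 '' B ∪ f5 '' B,
    ∀ y ∈ B ∪ f2 '' B ∪ f3 '' B ∪ f4 '' B ∪ f5 '' B,
    ∀ z ∈ B ∪ f2 '' B ∪ f3 '' B ∪ f4 '' B ∪ f5 '' B, u x + u y + u z ≤ c (x, y, z)
  eq23 : ∀ x ∈ B, c (x, f2 x, f3 x) = u x + u (f2 x) + u (f3 x)
  eq45 : ∀ x ∈ B, c (x, f4 x, f5 x) = u x + u (f4 x) + u (f5 x)
  rigid : ∀ x ∈ B ∪ f2 '' B ∪ f3 '' B ∪ f4 '' B ∪ f5 '' B,
    ∀ y ∈ B ∪ f2 '' B ∪ f3 '' B ∪ f4 '' B ∪ f5 '' B,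
    ∀ z ∈ B ∪ f2 '' B ∪ f3 '' B ∪ f4 '' B ∪ f5 '' B, u x + u y + u z = c (x, y, z) →
      y ∈ A2 → ((x ∈ A1 ∧ g2 y = x) ∨ x ∈ A3) ∧ z ∉ A2
  M : ℝ≥0∞
  M_ne : M ≠ ⊤
  bd23 : ∀ x ∈ B, ∀ x' ∈ B, c (x', f2 x, f3 x) ≤ M
  bd45 : ∀ x ∈ B, ∀ x' ∈ B, c (x', f4 x, f5 x) ≤ M

namespace Data

variable (D : Data E)

/-- the support set -/
def S : Set E := D.B ∪ D.f2 '' D.B ∪ D.f3 '' D.B ∪ D.f4 '' D.B ∪ D.f5 '' D.B

/-- the marginal -/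
noncomputable def μ : Measure E :=
  (6 : ℝ≥0∞)⁻¹ • (D.ν + D.ν + D.ν.map D.f2 + D.ν.map D.f3 + D.ν.map D.f4 + D.ν.map D.f5)

/-- the optimal plan -/
noncomputable def π₀ : Measure (E × E × E) :=
  (6 : ℝ≥0∞)⁻¹ • (D.ν.map (fun x => (x, D.f2 x, D.f3 x)) + D.ν.map (fun x => (D.f2 x, D.f3 x, x))
    + D.ν.map (fun x => (D.f3 x, x, D.f2 x)) + D.ν.map (fun x => (x, D.f4 x, D.f5 x))
    + D.ν.map (fun x => (D.f4 x, D.f5 x, x)) + D.ν.map (fun x => (D.f5 x, x, D.f4 x)))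

lemma mS : MeasurableSet D.S :=
  (((D.mB.union D.mI2).union D.mI3).union D.mI4).union D.mI5

lemma aeS : ∀ᵐ x ∂D.μ, x ∈ D.S := by
  have h1 : ∀ᵐ x ∂D.ν, x ∈ D.S := D.aeB.mono fun x hx => by
    simp only [S, mem_union]; tauto
  have key : ∀ f : E → E, Measurable f → f '' D.B ⊆ D.S → ∀ᵐ x ∂(D.ν.map f), x ∈ D.S := by
    intro f hf hs
    exact (ae_map_iff (p := fun x => x ∈ D.S) hf.aemeasurable D.mS).2
      (D.aeB.mono fun x hx => hs ⟨x, hx, rfl⟩)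
  have h2 := key _ D.mf2 (fun x hx => by simp only [S, mem_union]; tauto)
  have h3 := key _ D.mf3 (fun x hx => by simp only [S, mem_union]; tauto)
  have h4 := key _ D.mf4 (fun x hx => by simp only [S, mem_union]; tauto)
  have h5 := key _ D.mf5 (fun x hx => by simp only [S, mem_union]; tauto)
  unfold μ
  apply Measure.ae_smul_measure
  simp only [ae_add_measure_iff]
  tauto

lemma mt1 (f g : E → E) (hf : Measurable f) (hg : Measurable g) :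
    Measurable (fun x => (x, f x, g x)) := measurable_id.prodMk (hf.prodMk hg)
lemma mt2 (f g : E → E) (hf : Measurable f) (hg : Measurable g) :
    Measurable (fun x => (f x, g x, x)) := hf.prodMk (hg.prodMk measurable_id)
lemma mt3 (f g : E → E) (hf : Measurable f) (hg : Measurable g) :
    Measurable (fun x => (g x, x, f x)) := hg.prodMk (measurable_id.prodMk hf)

lemma map_π₀ {F : Type*} [MeasurableSpace F] (p : E × E × E → F) (hp : Measurable p) :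
    D.π₀.map p = (6 : ℝ≥0∞)⁻¹ • (D.ν.map (fun x => p (x, D.f2 x, D.f3 x))
      + D.ν.map (fun x => p (D.f2 x, D.f3 x, x))
    + D.ν.map (fun x => p (D.f3 x, x, D.f2 x)) + D.ν.map (fun x => p (x, D.f4 x, D.f5 x))
    + D.ν.map (fun x => p (D.f4 x, D.f5 x, x)) + D.ν.map (fun x => p (D.f5 x, x, D.f4 x))) := by
  unfold π₀
  rw [Measure.map_smul]
  simp only [Measure.map_add _ _ hp]
  rw [Measure.map_map hp (mt1 _ _ D.mf2 D.mf3), Measure.map_map hp (mt2 _ _ D.mf2 D.mf3),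
    Measure.map_map hp (mt3 _ _ D.mf2 D.mf3), Measure.map_map hp (mt1 _ _ D.mf4 D.mf5),
    Measure.map_map hp (mt2 _ _ D.mf4 D.mf5), Measure.map_map hp (mt3 _ _ D.mf4 D.mf5)]
  rfl

lemma π₀_fst : D.π₀.map (fun p => p.1) = D.μ := by
  rw [D.map_π₀ _ measurable_fst]
  unfold μ
  congr 1
  simp only [Measure.map_id']
  abel

lemma π₀_snd : D.π₀.map (fun p => p.2.1) = D.μ := by
  rw [D.map_π₀ _ measurable_snd.fst]
  unfold μ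
  congr 1
  simp only [Measure.map_id']
  abel

lemma π₀_thd : D.π₀.map (fun p => p.2.2) = D.μ := by
  rw [D.map_π₀ _ measurable_snd.snd]
  unfold μ
  congr 1
  simp only [Measure.map_id']
  abel

lemma lintegral_π₀ (F : E × E × E → ℝ≥0∞) (hF : Measurable F) :
    ∫⁻ p, F p ∂D.π₀ = (6 : ℝ≥0∞)⁻¹ * (∫⁻ x, F (x, D.f2 x, D.f3 x) ∂D.ν
      + ∫⁻ x, F (D.f2 x, D.f3 x, x) ∂D.ν + ∫⁻ x, F (D.f3 x, x, D.f2 x) ∂D.ν
      + ∫⁻ x, F (x, D.f4 x, D.f5 x) ∂D.ν + ∫⁻ x, F (D.f4 x, D.f5 x, x) ∂D.ν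
      + ∫⁻ x, F (D.f5 x, x, D.f4 x) ∂D.ν) := by
  unfold π₀
  rw [lintegral_smul_measure]
  simp only [lintegral_add_measure]
  rw [lintegral_map hF (mt1 _ _ D.mf2 D.mf3), lintegral_map hF (mt2 _ _ D.mf2 D.mf3),
    lintegral_map hF (mt3 _ _ D.mf2 D.mf3), lintegral_map hF (mt1 _ _ D.mf4 D.mf5),
    lintegral_map hF (mt2 _ _ D.mf4 D.mf5), lintegral_map hF (mt3 _ _ D.mf4 D.mf5)]
  rfl

lemma cost_π₀ : ∫⁻ p, D.c p ∂D.π₀ = (6 : ℝ≥0∞)⁻¹ * (3 * ∫⁻ x, D.c (x, D.f2 x, D.f3 x) ∂D.ν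
      + 3 * ∫⁻ x, D.c (x, D.f4 x, D.f5 x) ∂D.ν) := by
  rw [D.lintegral_π₀ _ D.mc]
  have e1 : ∀ x y z, D.c (z, x, y) = D.c (x, y, z) := fun x y z => (D.ccyc z x y).symm
  simp only [D.ccyc _ (D.f2 _) (D.f3 _), D.ccyc _ (D.f4 _) (D.f5 _), e1 _ (D.f2 _) (D.f3 _),
    e1 _ (D.f4 _) (D.f5 _)]
  ring

lemma cost_π₀_lt_top : ∫⁻ p, D.c p ∂D.π₀ < ⊤ := by
  have := D.prob
  have h1 : ∫⁻ x, D.c (x, D.f2 x, D.f3 x) ∂D.ν ≤ D.M := by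
    calc ∫⁻ x, D.c (x, D.f2 x, D.f3 x) ∂D.ν ≤ ∫⁻ _, D.M ∂D.ν :=
          lintegral_mono_ae (D.aeB.mono fun x hx => D.bd23 x hx x hx)
      _ = D.M := by simp
  have h2 : ∫⁻ x, D.c (x, D.f4 x, D.f5 x) ∂D.ν ≤ D.M := by
    calc ∫⁻ x, D.c (x, D.f4 x, D.f5 x) ∂D.ν ≤ ∫⁻ _, D.M ∂D.ν :=
          lintegral_mono_ae (D.aeB.mono fun x hx => D.bd45 x hx x hx)
      _ = D.M := by simp
  rw [D.cost_π₀]
  have hM := D.M_ne.lt_top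
  have h1' := h1.trans_lt hM
  have h2' := h2.trans_lt hM
  apply ENNReal.mul_lt_top (by simp)
  exact ENNReal.add_lt_top.2 ⟨ENNReal.mul_lt_top (by simp) h1', ENNReal.mul_lt_top (by simp) h2'⟩

/-- sum of potentials -/
noncomputable def U (p : E × E × E) : ℝ≥0∞ := D.u p.1 + D.u p.2.1 + D.u p.2.2

lemma mU : Measurable D.U :=
  ((D.mu.comp measurable_fst).add (D.mu.comp measurable_snd.fst)).add
    (D.mu.comp measurable_snd.snd)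

lemma lintegral_U (π : Measure (E × E × E)) (h1 : π.map (fun p => p.1) = D.μ)
    (h2 : π.map (fun p => p.2.1) = D.μ) (h3 : π.map (fun p => p.2.2) = D.μ) :
    ∫⁻ p, D.U p ∂π = 3 * ∫⁻ x, D.u x ∂D.μ := by
  unfold U
  have m1 : Measurable (fun p : E × E × E => D.u p.1) := D.mu.comp measurable_fst
  have m2 : Measurable (fun p : E × E × E => D.u p.1 + D.u p.2.1) :=
    m1.add (D.mu.comp measurable_snd.fst)
  rw [lintegral_add_left m2, lintegral_add_left m1]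
  have e1 : ∫⁻ p, D.u p.1 ∂π = ∫⁻ x, D.u x ∂D.μ := by
    rw [← h1, lintegral_map D.mu measurable_fst]
  have e2 : ∫⁻ p, D.u p.2.1 ∂π = ∫⁻ x, D.u x ∂D.μ := by
    rw [← h2, lintegral_map D.mu measurable_snd.fst]
  have e3 : ∫⁻ p, D.u p.2.2 ∂π = ∫⁻ x, D.u x ∂D.μ := by
    rw [← h3, lintegral_map D.mu measurable_snd.snd]
  rw [e1, e2, e3]
  ring

lemma cost_π₀_eq : ∫⁻ p, D.c p ∂D.π₀ = 3 * ∫⁻ x, D.u x ∂D.μ := by
  rw [← D.lintegral_U D.π₀ D.π₀_fst D.π₀_snd D.π₀_thd, D.cost_π₀, D.lintegral_π₀ _ D.mU]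
  have e1 : ∫⁻ x, D.c (x, D.f2 x, D.f3 x) ∂D.ν = ∫⁻ x, D.U (x, D.f2 x, D.f3 x) ∂D.ν :=
    lintegral_congr_ae (D.aeB.mono fun x hx => D.eq23 x hx)
  have e2 : ∫⁻ x, D.c (x, D.f4 x, D.f5 x) ∂D.ν = ∫⁻ x, D.U (x, D.f4 x, D.f5 x) ∂D.ν :=
    lintegral_congr_ae (D.aeB.mono fun x hx => D.eq45 x hx)
  have c1 : ∀ x y z, D.U (y, z, x) = D.U (x, y, z) := fun x y z => by simp only [U]; ring
  have c2 : ∀ x y z, D.U (z, x, y) = D.U (x, y, z) := fun x y z => by simp only [U]; ring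
  simp only [c1 _ (D.f2 _) (D.f3 _), c1 _ (D.f4 _) (D.f5 _), c2 _ (D.f2 _) (D.f3 _),
    c2 _ (D.f4 _) (D.f5 _)]
  rw [e1, e2]
  ring

lemma ae_S_of_coupling (π : Measure (E × E × E)) (h1 : π.map (fun p => p.1) = D.μ)
    (h2 : π.map (fun p => p.2.1) = D.μ) (h3 : π.map (fun p => p.2.2) = D.μ) :
    ∀ᵐ p ∂π, p.1 ∈ D.S ∧ p.2.1 ∈ D.S ∧ p.2.2 ∈ D.S := by
  have a1 : ∀ᵐ p ∂π, p.1 ∈ D.S :=
    ae_of_ae_map (p := fun x => x ∈ D.S) measurable_fst.aemeasurable (h1 ▸ D.aeS)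
  have a2 : ∀ᵐ p ∂π, p.2.1 ∈ D.S :=
    ae_of_ae_map (p := fun x => x ∈ D.S) measurable_snd.fst.aemeasurable (h2 ▸ D.aeS)
  have a3 : ∀ᵐ p ∂π, p.2.2 ∈ D.S :=
    ae_of_ae_map (p := fun x => x ∈ D.S) measurable_snd.snd.aemeasurable (h3 ▸ D.aeS)
  filter_upwards [a1, a2, a3] with p b1 b2 b3 using ⟨b1, b2, b3⟩

theorem optimal (π : Measure (E × E × E)) (h1 : π.map (fun p => p.1) = D.μ)
    (h2 : π.map (fun p => p.2.1) = D.μ) (h3 : π.map (fun p => p.2.2) = D.μ) :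
    ∫⁻ p, D.c p ∂D.π₀ ≤ ∫⁻ p, D.c p ∂π := by
  rw [D.cost_π₀_eq, ← D.lintegral_U π h1 h2 h3]
  apply lintegral_mono_ae
  filter_upwards [D.ae_S_of_coupling π h1 h2 h3] with p hp
  exact D.ineq _ hp.1 _ hp.2.1 _ hp.2.2

lemma μ_apply (W : Set E) (hW : MeasurableSet W) :
    D.μ W = (6 : ℝ≥0∞)⁻¹ * (D.ν W + D.ν W + D.ν (D.f2 ⁻¹' W) + D.ν (D.f3 ⁻¹' W)
      + D.ν (D.f4 ⁻¹' W) + D.ν (D.f5 ⁻¹' W)) := by
  unfold μ
  simp only [Measure.smul_apply, Measure.add_apply, smul_eq_mul]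
  rw [Measure.map_apply D.mf2 hW, Measure.map_apply D.mf3 hW, Measure.map_apply D.mf4 hW,
    Measure.map_apply D.mf5 hW]

lemma ν_zero (W : Set E) (h : ∀ x ∈ D.B, x ∉ W) : D.ν W = 0 := by
  have : ∀ᵐ x ∂D.ν, x ∉ W := D.aeB.mono h
  simpa [ae_iff] using this

lemma μ_A1 (W : Set E) (hW : MeasurableSet W) (h : W ⊆ D.A1) :
    D.μ W = (6 : ℝ≥0∞)⁻¹ * (D.ν W + D.ν W) := by
  rw [D.μ_apply W hW, D.ν_zero (D.f2 ⁻¹' W) (fun x hx hw => D.d12 _ (h hw) (D.h2 x hx)),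
    D.ν_zero (D.f3 ⁻¹' W) (fun x hx hw => D.d13 _ (h hw) (D.h3 x hx)),
    D.ν_zero (D.f4 ⁻¹' W) (fun x hx hw => D.d14 _ (h hw) (D.h4 x hx)),
    D.ν_zero (D.f5 ⁻¹' W) (fun x hx hw => D.d15 _ (h hw) (D.h5 x hx))]
  simp

lemma μ_A2 (W : Set E) (hW : MeasurableSet W) (h : W ⊆ D.A2) :
    D.μ W = (6 : ℝ≥0∞)⁻¹ * D.ν (D.f2 ⁻¹' W) := by
  rw [D.μ_apply W hW, D.ν_zero W (fun x hx hw => D.d12 _ (D.h1 x hx) (h hw)),
    D.ν_zero (D.f3 ⁻¹' W) (fun x hx hw => D.d23 _ (h hw) (D.h3 x hx)),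
    D.ν_zero (D.f4 ⁻¹' W) (fun x hx hw => D.d24 _ (h hw) (D.h4 x hx)),
    D.ν_zero (D.f5 ⁻¹' W) (fun x hx hw => D.d25 _ (h hw) (D.h5 x hx))]
  simp

lemma μ_A3 (W : Set E) (hW : MeasurableSet W) (h : W ⊆ D.A3) :
    D.μ W = (6 : ℝ≥0∞)⁻¹ * D.ν (D.f3 ⁻¹' W) := by
  rw [D.μ_apply W hW, D.ν_zero W (fun x hx hw => D.d13 _ (D.h1 x hx) (h hw)),
    D.ν_zero (D.f2 ⁻¹' W) (fun x hx hw => D.d23 _ (D.h2 x hx) (h hw)),
    D.ν_zero (D.f4 ⁻¹' W) (fun x hx hw => D.d34 _ (h hw) (D.h4 x hx)),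
    D.ν_zero (D.f5 ⁻¹' W) (fun x hx hw => D.d35 _ (h hw) (D.h5 x hx))]
  simp

lemma μ_A2_eq : D.μ D.A2 = (6 : ℝ≥0∞)⁻¹ := by
  have := D.prob
  rw [D.μ_A2 _ D.mA2 subset_rfl]
  have : D.ν (D.f2 ⁻¹' D.A2) = 1 := by
    rw [← measure_univ (μ := D.ν)]
    apply measure_congr
    filter_upwards [D.aeB] with x hx
    exact eq_true (D.h2 x hx)
  rw [this, mul_one]

lemma μ_A3_le : D.μ D.A3 ≤ (6 : ℝ≥0∞)⁻¹ := by
  have := D.prob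
  rw [D.μ_A3 _ D.mA3 subset_rfl]
  calc (6 : ℝ≥0∞)⁻¹ * D.ν (D.f3 ⁻¹' D.A3) ≤ (6 : ℝ≥0∞)⁻¹ * 1 := by
        gcongr; exact prob_le_one
    _ = _ := mul_one _

/-- key step of the non-Monge argument -/
lemma key_T (T : E → E) (hT : Measurable T) (hμ : D.μ.map T = D.μ)
    (h : ∀ᵐ x ∂D.μ, T x ∈ D.A2 → ((x ∈ D.A1 ∧ D.g2 (T x) = x) ∨ x ∈ D.A3)) :
    (6 : ℝ≥0∞)⁻¹ ≤ D.μ (D.A3 ∩ T ⁻¹' D.A2) := by
  have := D.prob
  set B1 : Set E := D.A1 ∩ T ⁻¹' D.A2 with hB1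
  have mB1 : MeasurableSet B1 := D.mA1.inter (hT D.mA2)
  set V : Set E := D.A2 ∩ D.g2 ⁻¹' B1 with hV
  have mV : MeasurableSet V := D.mA2.inter (D.mg2 mB1)
  have e1 : D.μ V = (6 : ℝ≥0∞)⁻¹ * D.ν B1 := by
    rw [D.μ_A2 V mV inter_subset_left]
    congr 1
    apply measure_congr
    filter_upwards [D.aeB] with x hx
    apply propext
    change D.f2 x ∈ V ↔ x ∈ B1
    simp only [hV, mem_inter_iff, mem_preimage, D.gf2 x hx, D.h2 x hx, true_and]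
  have e2 : D.μ B1 = (6 : ℝ≥0∞)⁻¹ * (D.ν B1 + D.ν B1) := D.μ_A1 B1 mB1 inter_subset_left
  have e3 : D.μ B1 ≤ D.μ V := by
    calc D.μ B1 ≤ D.μ (T ⁻¹' V) := by
          apply measure_mono_ae
          filter_upwards [h] with x hx hxB
          have hxB' : x ∈ B1 := hxB
          rcases hx hxB'.2 with h1 | h1
          · refine ⟨hxB'.2, ?_⟩
            change D.g2 (T x) ∈ B1
            rw [h1.2]; exact hxB'
          · exact absurd h1 (D.d13 _ hxB'.1)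
      _ = D.μ V := by rw [← Measure.map_apply hT mV, hμ]
  have e4 : D.ν B1 = 0 := by
    rw [e1, e2] at e3
    have e5 : D.ν B1 + D.ν B1 ≤ D.ν B1 := by
      rwa [ENNReal.mul_le_mul_iff_right (by simp) (by simp)] at e3
    have e6 : D.ν B1 + D.ν B1 ≤ D.ν B1 + 0 := by simpa using e5
    have := (ENNReal.add_le_add_iff_left (measure_ne_top D.ν B1)).1 e6
    simpa using this
  have e5 : D.μ B1 = 0 := by rw [e2, e4]; simp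
  calc (6 : ℝ≥0∞)⁻¹ = D.μ D.A2 := D.μ_A2_eq.symm
    _ = D.μ (T ⁻¹' D.A2) := by rw [← Measure.map_apply hT D.mA2, hμ]
    _ ≤ D.μ (B1 ∪ (D.A3 ∩ T ⁻¹' D.A2)) := by
          apply measure_mono_ae
          filter_upwards [h] with x hx hxB
          have hxB' : T x ∈ D.A2 := hxB
          rcases hx hxB' with h1 | h1
          · exact Or.inl ⟨h1.1, hxB'⟩
          · exact Or.inr ⟨h1, hxB'⟩
    _ ≤ D.μ B1 + D.μ (D.A3 ∩ T ⁻¹' D.A2) := measure_union_le _ _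
    _ = _ := by rw [e5, zero_add]

theorem not_monge (T₂ T₃ : E → E) (h₂ : Measurable T₂) (h₃ : Measurable T₃)
    (hμ₂ : D.μ.map T₂ = D.μ) (hμ₃ : D.μ.map T₃ = D.μ) :
    ∫⁻ p, D.c p ∂D.π₀ < ∫⁻ x, D.c (x, T₂ x, T₃ x) ∂D.μ := by
  by_contra hcon
  push Not at hcon
  have mT := mt1 _ _ h₂ h₃
  set π : Measure (E × E × E) := D.μ.map (fun x => (x, T₂ x, T₃ x)) with hπ
  have p1 : π.map (fun p => p.1) = D.μ := by
    rw [hπ, Measure.map_map measurable_fst mT]; exact Measure.map_id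
  have p2 : π.map (fun p => p.2.1) = D.μ := by
    rw [hπ, Measure.map_map measurable_snd.fst mT]; exact hμ₂
  have p3 : π.map (fun p => p.2.2) = D.μ := by
    rw [hπ, Measure.map_map measurable_snd.snd mT]; exact hμ₃
  have hS := D.ae_S_of_coupling π p1 p2 p3
  have hle : D.U ≤ᵐ[π] D.c := by
    filter_upwards [hS] with p hp
    exact D.ineq _ hp.1 _ hp.2.1 _ hp.2.2
  have hU : ∫⁻ p, D.U p ∂π = ∫⁻ p, D.c p ∂D.π₀ := by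
    rw [D.lintegral_U π p1 p2 p3, D.cost_π₀_eq]
  have heq : D.U =ᵐ[π] D.c := by
    apply ae_eq_of_ae_le_of_lintegral_le hle (hU ▸ D.cost_π₀_lt_top.ne) D.mc.aemeasurable
    rw [hU, hπ, lintegral_map D.mc mT]
    exact hcon
  have hall : ∀ᵐ x ∂D.μ, (x ∈ D.S ∧ T₂ x ∈ D.S ∧ T₃ x ∈ D.S) ∧
      D.U (x, T₂ x, T₃ x) = D.c (x, T₂ x, T₃ x) :=
    ae_of_ae_map (p := fun p => (p.1 ∈ D.S ∧ p.2.1 ∈ D.S ∧ p.2.2 ∈ D.S) ∧ D.U p = D.c p)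
      mT.aemeasurable (hS.and heq)
  have r2 : ∀ᵐ x ∂D.μ, T₂ x ∈ D.A2 → ((x ∈ D.A1 ∧ D.g2 (T₂ x) = x) ∨ x ∈ D.A3) ∧ T₃ x ∉ D.A2 := by
    filter_upwards [hall] with x hx
    exact D.rigid _ hx.1.1 _ hx.1.2.1 _ hx.1.2.2 hx.2
  have r3 : ∀ᵐ x ∂D.μ, T₃ x ∈ D.A2 → ((x ∈ D.A1 ∧ D.g2 (T₃ x) = x) ∨ x ∈ D.A3) ∧ T₂ x ∉ D.A2 := by
    filter_upwards [hall] with x hx
    refine D.rigid _ hx.1.1 _ hx.1.2.2 _ hx.1.2.1 ?_
    rw [D.cswap, ← hx.2]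
    simp only [U]; ring
  have k2 := D.key_T T₂ h₂ hμ₂ (r2.mono fun x hx h => (hx h).1)
  have k3 := D.key_T T₃ h₃ hμ₃ (r3.mono fun x hx h => (hx h).1)
  have hdis : AEDisjoint D.μ (D.A3 ∩ T₂ ⁻¹' D.A2) (D.A3 ∩ T₃ ⁻¹' D.A2) := by
    have : ∀ᵐ x ∂D.μ, x ∉ (D.A3 ∩ T₂ ⁻¹' D.A2) ∩ (D.A3 ∩ T₃ ⁻¹' D.A2) := by
      filter_upwards [r2] with x hx hx'
      exact (hx hx'.1.2).2 hx'.2.2
    exact measure_eq_zero_iff_ae_notMem.2 this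
  have hsum : D.μ (D.A3 ∩ T₂ ⁻¹' D.A2) + D.μ (D.A3 ∩ T₃ ⁻¹' D.A2) ≤ (6 : ℝ≥0∞)⁻¹ := by
    rw [← measure_union₀ (D.mA3.inter (h₃ D.mA2)).nullMeasurableSet hdis]
    exact (measure_mono (union_subset inter_subset_left inter_subset_left)).trans D.μ_A3_le
  have : (6 : ℝ≥0∞)⁻¹ + (6 : ℝ≥0∞)⁻¹ ≤ (6 : ℝ≥0∞)⁻¹ + 0 := by
    simpa using (add_le_add k2 k3).trans hsum
  have := (ENNReal.add_le_add_iff_left (by simp)).1 this
  simp at this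

/-- One splitting of the base measure gives a Monge pair with an explicit cost. -/
theorem monge_of_split (EL ER Dm : E → E) (L : Set E) (mEL : Measurable EL) (mER : Measurable ER)
    (mD : Measurable Dm) (mL : MeasurableSet L)
    (hsplit : D.ν + D.ν = D.ν.map EL + D.ν.map ER)
    (hae : ∀ᵐ x ∂D.ν, Dm (EL x) = x ∧ Dm (ER x) = x ∧ EL x ∈ L ∧ ER x ∉ L) :
    ∃ T₂ T₃ : E → E, Measurable T₂ ∧ Measurable T₃ ∧ D.μ.map T₂ = D.μ ∧ D.μ.map T₃ = D.μ ∧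
      ∫⁻ x, D.c (x, T₂ x, T₃ x) ∂D.μ = (6 : ℝ≥0∞)⁻¹ *
        (3 * ∫⁻ x, D.c (EL x, D.f2 x, D.f3 x) ∂D.ν + 3 * ∫⁻ x, D.c (ER x, D.f4 x, D.f5 x) ∂D.ν) := by
  classical
  have hB2 : ∀ᵐ x ∂(D.ν.map EL + D.ν.map ER), x ∈ D.B := by
    rw [← hsplit, ae_add_measure_iff]; exact ⟨D.aeB, D.aeB⟩
  rw [ae_add_measure_iff] at hB2
  have hEL : ∀ᵐ x ∂D.ν, EL x ∈ D.B := ae_of_ae_map (p := fun x => x ∈ D.B) mEL.aemeasurable hB2.1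
  have hER : ∀ᵐ x ∂D.ν, ER x ∈ D.B := ae_of_ae_map (p := fun x => x ∈ D.B) mER.aemeasurable hB2.2
  let T₂ : E → E := fun x => if x ∈ D.A1 then (if x ∈ L then D.f2 (Dm x) else D.f4 (Dm x))
    else if x ∈ D.A2 then D.f3 (D.g2 x) else if x ∈ D.A3 then EL (D.g3 x)
    else if x ∈ D.A4 then D.f5 (D.g4 x) else ER (D.g5 x)
  let T₃ : E → E := fun x => if x ∈ D.A1 then (if x ∈ L then D.f3 (Dm x) else D.f5 (Dm x))
    else if x ∈ D.A2 then EL (D.g2 x) else if x ∈ D.A3 then D.f2 (D.g3 x)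
    else if x ∈ D.A4 then ER (D.g4 x) else D.f4 (D.g5 x)
  have m₂ : Measurable T₂ :=
    Measurable.ite D.mA1 (Measurable.ite mL (D.mf2.comp mD) (D.mf4.comp mD))
      (Measurable.ite D.mA2 (D.mf3.comp D.mg2) (Measurable.ite D.mA3 (mEL.comp D.mg3)
        (Measurable.ite D.mA4 (D.mf5.comp D.mg4) (mER.comp D.mg5))))
  have m₃ : Measurable T₃ :=
    Measurable.ite D.mA1 (Measurable.ite mL (D.mf3.comp mD) (D.mf5.comp mD))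
      (Measurable.ite D.mA2 (mEL.comp D.mg2) (Measurable.ite D.mA3 (D.mf2.comp D.mg3)
        (Measurable.ite D.mA4 (mER.comp D.mg4) (D.mf4.comp D.mg5))))
  have hT : ∀ᵐ x ∂D.ν, (T₂ (EL x) = D.f2 x ∧ T₃ (EL x) = D.f3 x) ∧
      (T₂ (ER x) = D.f4 x ∧ T₃ (ER x) = D.f5 x) ∧
      (T₂ (D.f2 x) = D.f3 x ∧ T₃ (D.f2 x) = EL x) ∧
      (T₂ (D.f3 x) = EL x ∧ T₃ (D.f3 x) = D.f2 x) ∧
      (T₂ (D.f4 x) = D.f5 x ∧ T₃ (D.f4 x) = ER x) ∧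
      (T₂ (D.f5 x) = ER x ∧ T₃ (D.f5 x) = D.f4 x) := by
    filter_upwards [D.aeB, hae, hEL, hER] with x hx ⟨a1, a2, a3, a4⟩ b1 b2
    have n21 : D.f2 x ∉ D.A1 := fun h => D.d12 _ h (D.h2 x hx)
    have n31 : D.f3 x ∉ D.A1 := fun h => D.d13 _ h (D.h3 x hx)
    have n41 : D.f4 x ∉ D.A1 := fun h => D.d14 _ h (D.h4 x hx)
    have n51 : D.f5 x ∉ D.A1 := fun h => D.d15 _ h (D.h5 x hx)
    have n32 : D.f3 x ∉ D.A2 := fun h => D.d23 _ h (D.h3 x hx)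
    have n42 : D.f4 x ∉ D.A2 := fun h => D.d24 _ h (D.h4 x hx)
    have n52 : D.f5 x ∉ D.A2 := fun h => D.d25 _ h (D.h5 x hx)
    have n43 : D.f4 x ∉ D.A3 := fun h => D.d34 _ h (D.h4 x hx)
    have n53 : D.f5 x ∉ D.A3 := fun h => D.d35 _ h (D.h5 x hx)
    have n54 : D.f5 x ∉ D.A4 := fun h => D.d45 _ h (D.h5 x hx)
    simp only [T₂, T₃, D.h1 _ b1, D.h1 _ b2, a1, a2, a3, a4, n21, n31, n41, n51, n32, n42, n52,
      n43, n53, n54, D.h2 x hx, D.h3 x hx, D.h4 x hx, D.gf2 x hx, D.gf3 x hx, D.gf4 x hx,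
      D.gf5 x hx, if_true, if_false, and_self]
  have hμ : D.μ = (6 : ℝ≥0∞)⁻¹ • (D.ν.map EL + D.ν.map ER + D.ν.map D.f2 + D.ν.map D.f3
      + D.ν.map D.f4 + D.ν.map D.f5) := by
    unfold μ; rw [hsplit]
  have hmap : ∀ {F : Type _} [MeasurableSpace F] (p : E → F), Measurable p →
      D.μ.map p = (6 : ℝ≥0∞)⁻¹ • (D.ν.map (p ∘ EL) + D.ν.map (p ∘ ER) + D.ν.map (p ∘ D.f2)
        + D.ν.map (p ∘ D.f3) + D.ν.map (p ∘ D.f4) + D.ν.map (p ∘ D.f5)) := by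
    intro F _ p hp
    rw [hμ, Measure.map_smul]
    simp only [Measure.map_add _ _ hp]
    rw [Measure.map_map hp mEL, Measure.map_map hp mER, Measure.map_map hp D.mf2,
      Measure.map_map hp D.mf3, Measure.map_map hp D.mf4, Measure.map_map hp D.mf5]
  refine ⟨T₂, T₃, m₂, m₃, ?_, ?_, ?_⟩
  · rw [hmap T₂ m₂, Measure.map_congr (f := T₂ ∘ EL) (g := D.f2) (hT.mono fun x hx => hx.1.1),
      Measure.map_congr (f := T₂ ∘ ER) (g := D.f4) (hT.mono fun x hx => hx.2.1.1),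
      Measure.map_congr (f := T₂ ∘ D.f2) (g := D.f3) (hT.mono fun x hx => hx.2.2.1.1),
      Measure.map_congr (f := T₂ ∘ D.f3) (g := EL) (hT.mono fun x hx => hx.2.2.2.1.1),
      Measure.map_congr (f := T₂ ∘ D.f4) (g := D.f5) (hT.mono fun x hx => hx.2.2.2.2.1.1),
      Measure.map_congr (f := T₂ ∘ D.f5) (g := ER) (hT.mono fun x hx => hx.2.2.2.2.2.1), hμ]
    congr 1
    abel
  · rw [hmap T₃ m₃, Measure.map_congr (f := T₃ ∘ EL) (g := D.f3) (hT.mono fun x hx => hx.1.2),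
      Measure.map_congr (f := T₃ ∘ ER) (g := D.f5) (hT.mono fun x hx => hx.2.1.2),
      Measure.map_congr (f := T₃ ∘ D.f2) (g := EL) (hT.mono fun x hx => hx.2.2.1.2),
      Measure.map_congr (f := T₃ ∘ D.f3) (g := D.f2) (hT.mono fun x hx => hx.2.2.2.1.2),
      Measure.map_congr (f := T₃ ∘ D.f4) (g := ER) (hT.mono fun x hx => hx.2.2.2.2.1.2),
      Measure.map_congr (f := T₃ ∘ D.f5) (g := D.f4) (hT.mono fun x hx => hx.2.2.2.2.2.2), hμ]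
    congr 1
    abel
  · have mF : Measurable (fun x => D.c (x, T₂ x, T₃ x)) := D.mc.comp (mt1 _ _ m₂ m₃)
    rw [hμ, lintegral_smul_measure]
    simp only [lintegral_add_measure]
    rw [lintegral_map mF mEL, lintegral_map mF mER, lintegral_map mF D.mf2,
      lintegral_map mF D.mf3, lintegral_map mF D.mf4, lintegral_map mF D.mf5]
    have e1 : ∀ x y z, D.c (z, x, y) = D.c (x, y, z) := fun x y z => (D.ccyc z x y).symm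
    have q1 : ∫⁻ x, D.c (EL x, T₂ (EL x), T₃ (EL x)) ∂D.ν
        = ∫⁻ x, D.c (EL x, D.f2 x, D.f3 x) ∂D.ν :=
      lintegral_congr_ae (hT.mono fun x hx => by simp only [hx.1.1, hx.1.2])
    have q2 : ∫⁻ x, D.c (ER x, T₂ (ER x), T₃ (ER x)) ∂D.ν
        = ∫⁻ x, D.c (ER x, D.f4 x, D.f5 x) ∂D.ν :=
      lintegral_congr_ae (hT.mono fun x hx => by simp only [hx.2.1.1, hx.2.1.2])
    have q3 : ∫⁻ x, D.c (D.f2 x, T₂ (D.f2 x), T₃ (D.f2 x)) ∂D.ν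
        = ∫⁻ x, D.c (EL x, D.f2 x, D.f3 x) ∂D.ν :=
      lintegral_congr_ae (hT.mono fun x hx => by
        simp only [hx.2.2.1.1, hx.2.2.1.2]; exact D.ccyc _ _ _)
    have q4 : ∫⁻ x, D.c (D.f3 x, T₂ (D.f3 x), T₃ (D.f3 x)) ∂D.ν
        = ∫⁻ x, D.c (EL x, D.f2 x, D.f3 x) ∂D.ν :=
      lintegral_congr_ae (hT.mono fun x hx => by
        simp only [hx.2.2.2.1.1, hx.2.2.2.1.2]; exact e1 _ _ _)
    have q5 : ∫⁻ x, D.c (D.f4 x, T₂ (D.f4 x), T₃ (D.f4 x)) ∂D.ν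
        = ∫⁻ x, D.c (ER x, D.f4 x, D.f5 x) ∂D.ν :=
      lintegral_congr_ae (hT.mono fun x hx => by
        simp only [hx.2.2.2.2.1.1, hx.2.2.2.2.1.2]; exact D.ccyc _ _ _)
    have q6 : ∫⁻ x, D.c (D.f5 x, T₂ (D.f5 x), T₃ (D.f5 x)) ∂D.ν
        = ∫⁻ x, D.c (ER x, D.f4 x, D.f5 x) ∂D.ν :=
      lintegral_congr_ae (hT.mono fun x hx => by
        simp only [hx.2.2.2.2.2.1, hx.2.2.2.2.2.2]; exact e1 _ _ _)
    rw [q1, q2, q3, q4, q5, q6, smul_eq_mul]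
    ring

theorem monge_approx [TopologicalSpace E] (EL ER Dm : ℕ → E → E) (L : ℕ → Set E)
    (mEL : ∀ n, Measurable (EL n)) (mER : ∀ n, Measurable (ER n))
    (mD : ∀ n, Measurable (Dm n)) (mL : ∀ n, MeasurableSet (L n))
    (hsplit : ∀ n, D.ν + D.ν = D.ν.map (EL n) + D.ν.map (ER n))
    (hae : ∀ n, ∀ᵐ x ∂D.ν, Dm n (EL n x) = x ∧ Dm n (ER n x) = x ∧ EL n x ∈ L n ∧ ER n x ∉ L n)
    (hlim : ∀ᵐ x ∂D.ν, Tendsto (fun n => EL n x) atTop (𝓝 x) ∧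
      Tendsto (fun n => ER n x) atTop (𝓝 x))
    (c23 : ∀ x ∈ D.B, ContinuousAt (fun x' => D.c (x', D.f2 x, D.f3 x)) x)
    (c45 : ∀ x ∈ D.B, ContinuousAt (fun x' => D.c (x', D.f4 x, D.f5 x)) x)
    (ε : ℝ≥0∞) (hε : 0 < ε) :
    ∃ T₂ T₃ : E → E, Measurable T₂ ∧ Measurable T₃ ∧ D.μ.map T₂ = D.μ ∧ D.μ.map T₃ = D.μ ∧
      ∫⁻ x, D.c (x, T₂ x, T₃ x) ∂D.μ < ∫⁻ p, D.c p ∂D.π₀ + ε := by
  have := D.prob
  have hB : ∀ n, (∀ᵐ x ∂D.ν, EL n x ∈ D.B) ∧ (∀ᵐ x ∂D.ν, ER n x ∈ D.B) := by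
    intro n
    have hB2 : ∀ᵐ x ∂(D.ν.map (EL n) + D.ν.map (ER n)), x ∈ D.B := by
      rw [← hsplit, ae_add_measure_iff]; exact ⟨D.aeB, D.aeB⟩
    rw [ae_add_measure_iff] at hB2
    exact ⟨ae_of_ae_map (p := fun x => x ∈ D.B) (mEL n).aemeasurable hB2.1,
      ae_of_ae_map (p := fun x => x ∈ D.B) (mER n).aemeasurable hB2.2⟩
  have t1 : Tendsto (fun n => ∫⁻ x, D.c (EL n x, D.f2 x, D.f3 x) ∂D.ν) atTop
      (𝓝 (∫⁻ x, D.c (x, D.f2 x, D.f3 x) ∂D.ν)) := by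
    apply tendsto_lintegral_of_dominated_convergence (fun _ => D.M)
    · intro n; exact D.mc.comp ((mEL n).prodMk (D.mf2.prodMk D.mf3))
    · intro n
      filter_upwards [D.aeB, (hB n).1] with x hx hx' using D.bd23 x hx _ hx'
    · simpa using D.M_ne
    · filter_upwards [D.aeB, hlim] with x hx hx' using (c23 x hx).tendsto.comp hx'.1
  have t2 : Tendsto (fun n => ∫⁻ x, D.c (ER n x, D.f4 x, D.f5 x) ∂D.ν) atTop
      (𝓝 (∫⁻ x, D.c (x, D.f4 x, D.f5 x) ∂D.ν)) := by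
    apply tendsto_lintegral_of_dominated_convergence (fun _ => D.M)
    · intro n; exact D.mc.comp ((mER n).prodMk (D.mf4.prodMk D.mf5))
    · intro n
      filter_upwards [D.aeB, (hB n).2] with x hx hx' using D.bd45 x hx _ hx'
    · simpa using D.M_ne
    · filter_upwards [D.aeB, hlim] with x hx hx' using (c45 x hx).tendsto.comp hx'.2
  have t3 : Tendsto (fun n => (6 : ℝ≥0∞)⁻¹ *
        (3 * ∫⁻ x, D.c (EL n x, D.f2 x, D.f3 x) ∂D.ν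
          + 3 * ∫⁻ x, D.c (ER n x, D.f4 x, D.f5 x) ∂D.ν)) atTop (𝓝 (∫⁻ p, D.c p ∂D.π₀)) := by
    rw [D.cost_π₀]
    apply ENNReal.Tendsto.const_mul _ (Or.inr (by simp))
    exact (ENNReal.Tendsto.const_mul t1 (Or.inr (by simp))).add
      (ENNReal.Tendsto.const_mul t2 (Or.inr (by simp)))
  have hlt : ∫⁻ p, D.c p ∂D.π₀ < ∫⁻ p, D.c p ∂D.π₀ + ε :=
    ENNReal.lt_add_right D.cost_π₀_lt_top.ne hε.ne'
  obtain ⟨n, hn⟩ := (t3.eventually (gt_mem_nhds hlt)).exists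
  obtain ⟨T₂, T₃, a1, a2, a3, a4, a5⟩ := D.monge_of_split (EL n) (ER n) (Dm n) (L n) (mEL n)
    (mER n) (mD n) (mL n) (hsplit n) (hae n)
  exact ⟨T₂, T₃, a1, a2, a3, a4, a5 ▸ hn⟩

end Data

end Crest.Agent.R130
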