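import Mathlib

/-!
Local structure of the contact set (row 130): calculus part.
-/

open Set Filter Topology Metric
open scoped ContDiff RealInnerProductSpace

namespace Crest.Agent.R130

variable {E : Type*} [NormedAddCommGroup E] [InnerProductSpace ℝ E]

/-- the real pair interaction -/
noncomputable def w (s : ℝ) (p : E) : ℝ := ‖p‖ ^ (-s)

/-- its gradient -/
noncomputable def G (s : ℝ) (p : E) : E := (-s * ‖p‖ ^ (-s - 2)) • p

lemma hasFDerivAt_norm_rpow' (q : ℝ) {p : E} (hp : p ≠ 0) :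
    HasFDerivAt (fun x : E => ‖x‖ ^ q) ((q * ‖p‖ ^ (q - 2)) • innerSL ℝ p) p := by
  have h1 : HasFDerivAt (fun x : E => ‖x‖ ^ 2) (2 • innerSL ℝ p) p :=
    (hasStrictFDerivAt_norm_sq p).hasFDerivAt
  have hpos : 0 < ‖p‖ := norm_pos_iff.2 hp
  have h2 := h1.rpow_const (p := q / 2) (Or.inl (by positivity))
  have e : (fun x : E => (‖x‖ ^ 2) ^ (q / 2)) = fun x : E => ‖x‖ ^ q := by
    funext x
    rw [← Real.rpow_natCast, ← Real.rpow_mul (norm_nonneg _)]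
    congr 1; push_cast; ring
  rw [e] at h2
  convert h2 using 1
  rw [← Real.rpow_natCast, ← Real.rpow_mul (norm_nonneg _)]
  ext v
  simp only [smul_apply, smul_eq_mul, nsmul_eq_mul]
  have : ((2 : ℕ) : ℝ) * (q / 2 - 1) = q - 2 := by push_cast; ring
  rw [this]
  push_cast
  ring

lemma hasFDerivAt_w (s : ℝ) {p : E} (hp : p ≠ 0) :
    HasFDerivAt (w s) (innerSL ℝ (G s p)) p := by
  have h := hasFDerivAt_norm_rpow' (-s) hp
  have e : innerSL ℝ (G s p) = (-s * ‖p‖ ^ (-s - 2)) • innerSL ℝ p := by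
    ext v
    simp [G]
  rw [e]
  exact h

lemma contDiffAt_G (s : ℝ) {p : E} (hp : p ≠ 0) : ContDiffAt ℝ ω (G s) p := by
  unfold G
  apply ContDiffAt.smul _ contDiffAt_id
  apply ContDiffAt.mul contDiffAt_const
  exact (contDiffAt_norm ℝ hp).rpow_const_of_ne (norm_ne_zero_iff.2 hp)

lemma G_neg (s : ℝ) (p : E) : G s (-p) = -G s p := by
  simp [G]

omit [InnerProductSpace ℝ E] in
lemma w_neg (s : ℝ) (p : E) : w s (-p) = w s p := by
  simp [w]

lemma continuousAt_w (s : ℝ) {p : E} (hp : p ≠ 0) : ContinuousAt (w s) p :=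
  (hasFDerivAt_w s hp).continuousAt

lemma fderiv_G_injective {s : ℝ} (hs : 0 < s) {p : E} (hp : p ≠ 0) :
    Function.Injective (fderiv ℝ (G s) p) := by
  have h1 := (hasFDerivAt_norm_rpow' (-s - 2) hp).const_mul (-s)
  have h2 := h1.smul (hasFDerivAt_id p)
  have h3 : fderiv ℝ (G s) p = _ := h2.fderiv
  rw [injective_iff_map_eq_zero]
  intro v hv
  rw [h3] at hv
  have hpos : 0 < ‖p‖ := norm_pos_iff.2 hp
  simp only [add_apply, smul_apply,
    ContinuousLinearMap.id_apply, ContinuousLinearMap.smulRight_apply, smul_eq_mul, id,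
    innerSL_apply_apply] at hv
  have hA : 0 < ‖p‖ ^ (-s - 2 - 2) := Real.rpow_pos_of_pos hpos _
  have hB : ‖p‖ ^ (-s - 2) = ‖p‖ ^ (-s - 2 - 2) * ‖p‖ ^ 2 := by
    rw [← Real.rpow_natCast, ← Real.rpow_add hpos]; congr 1; push_cast; ring
  have h4 := congrArg (fun z => ⟪p, z⟫) hv
  simp only [inner_add_right, inner_smul_right, inner_zero_right, real_inner_self_eq_norm_sq] at h4
  rw [hB] at h4
  have h5 : ⟪p, v⟫ = 0 := by
    have : (s * (s + 1) * (‖p‖ ^ (-s - 2 - 2) * ‖p‖ ^ 2)) * ⟪p, v⟫ = 0 := by linarith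
    rcases mul_eq_zero.1 this with h | h
    · exfalso
      have : 0 < s * (s + 1) * (‖p‖ ^ (-s - 2 - 2) * ‖p‖ ^ 2) := by positivity
      linarith
    · exact h
  rw [h5] at hv
  simp only [mul_zero, zero_smul, add_zero, smul_eq_zero] at hv
  rcases hv with h | h
  · exfalso
    have : 0 < s * ‖p‖ ^ (-s - 2) := by positivity
    linarith
  · exact h

lemma taylor_w (s : ℝ) {a : E} (ha : a ≠ 0) : ∃ K r : ℝ, 0 < r ∧ 0 ≤ K ∧
    ∀ p ∈ ball a r, ∀ q ∈ ball a r, w s p + ⟪G s p, q - p⟫ - K * ‖q - p‖ ^ 2 ≤ w s q := by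
  have h1 : ContDiffAt ℝ 1 (G s) a := (contDiffAt_G s ha).of_le le_top
  obtain ⟨K, t, ht, hK⟩ := h1.exists_lipschitzOnWith
  obtain ⟨r, hr, hrt⟩ := Metric.mem_nhds_iff.1 (inter_mem ht (isOpen_ne.mem_nhds ha))
  refine ⟨K, r, hr, K.2, fun p hp q hq => ?_⟩
  have hsub : segment ℝ p q ⊆ ball a r := (convex_ball a r).segment_subset hp hq
  have hb := (convex_segment p q).norm_image_sub_le_of_norm_hasFDerivWithin_le'
    (f := w s) (f' := fun x => innerSL ℝ (G s x)) (φ := innerSL ℝ (G s p)) (C := K * ‖q - p‖)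
    (fun x hx => (hasFDerivAt_w s (hrt (hsub hx)).2).hasFDerivWithinAt)
    (fun x hx => by
      rw [← map_sub, innerSL_apply_norm]
      have h2 := hK.dist_le_mul x (hrt (hsub hx)).1 p (hrt hp).1
      rw [dist_eq_norm, dist_eq_norm] at h2
      refine h2.trans (mul_le_mul_of_nonneg_left ?_ K.2)
      exact norm_sub_le_of_mem_segment hx)
    (left_mem_segment ℝ p q) (right_mem_segment ℝ p q)
  rw [Real.norm_eq_abs, innerSL_apply_apply] at hb
  have := (abs_le.1 hb).1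
  nlinarith

/-- analytic local inverse -/
lemma exists_local_inverse {F : Type*} [NormedAddCommGroup F] [NormedSpace ℝ F]
    [FiniteDimensional ℝ F] {f : F → F} {a : F} (hf : ContDiffAt ℝ ω f a)
    (hinj : Function.Injective (fderiv ℝ f a)) :
    ∃ g : F → F, ContDiffAt ℝ ω g (f a) ∧ g (f a) = a ∧ (∀ᶠ x in 𝓝 a, g (f x) = x) ∧
      (∀ᶠ y in 𝓝 (f a), f (g y) = y) := by
  have : CompleteSpace F := FiniteDimensional.complete ℝ F
  let L : F ≃L[ℝ] F :=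
    (LinearEquiv.ofInjectiveEndo (fderiv ℝ f a).toLinearMap hinj).toContinuousLinearEquiv
  have hL : (L : F →L[ℝ] F) = fderiv ℝ f a := by
    ext v; rfl
  have hf' : HasFDerivAt f (L : F →L[ℝ] F) a := by
    rw [hL]; exact (hf.differentiableAt (by simp)).hasFDerivAt
  have hn : (ω : WithTop ℕ∞) ≠ 0 := by simp
  refine ⟨hf.localInverse hf' hn, hf.to_localInverse hf' hn, hf.localInverse_apply_image hf' hn,
    (hf.hasStrictFDerivAt' hf' hn).eventually_left_inverse,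
    (hf.hasStrictFDerivAt' hf' hn).eventually_right_inverse⟩

omit [InnerProductSpace ℝ E] in
lemma lin_kernel [NormedSpace ℝ E] (W1 W2 W3 : E →L[ℝ] E) (C N lam : ℝ) (hC : 0 ≤ C) (hN : 0 ≤ N)
    (c1 : ∀ v, ‖W1 v‖ ≤ C * ‖v‖) (c2 : ∀ v, ‖W2 v‖ ≤ C * ‖v‖) (c3 : ∀ v, ‖W3 v‖ ≤ C * ‖v‖)
    (n1 : ∀ v, ‖v‖ ≤ N * ‖W1 v‖) (n3 : ∀ v, ‖v‖ ≤ N * ‖W3 v‖)
    (hlam : 3 * C + N * C ^ 2 + 1 ≤ lam) (ξ η ζ : E)
    (h1 : W1 (ξ - η) + W2 (ξ - ζ) + lam • ξ = 0) (h3 : -W2 (ξ - ζ) - W3 (η - ζ) + lam • ζ = 0)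
    (h : ξ = 0 ∨ η = 0 ∨ ζ = 0) : ξ = 0 ∧ η = 0 ∧ ζ = 0 := by
  have hNC : 0 ≤ N * C ^ 2 := by positivity
  have hlam0 : 0 ≤ lam := by linarith
  have e1 : lam * ‖ξ‖ ≤ C * (‖ξ‖ + ‖η‖) + C * (‖ξ‖ + ‖ζ‖) := by
    have : lam • ξ = -(W1 (ξ - η)) - W2 (ξ - ζ) := by
      rw [← sub_eq_zero, ← h1]; abel
    have h2 := congrArg norm this
    rw [norm_smul, Real.norm_eq_abs, abs_of_nonneg hlam0] at h2
    rw [h2]
    refine (norm_sub_le _ _).trans (add_le_add ?_ ?_)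
    · rw [norm_neg]; exact (c1 _).trans (by gcongr; exact norm_sub_le _ _)
    · exact (c2 _).trans (by gcongr; exact norm_sub_le _ _)
  have e3 : lam * ‖ζ‖ ≤ C * (‖ξ‖ + ‖ζ‖) + C * (‖η‖ + ‖ζ‖) := by
    have : lam • ζ = W2 (ξ - ζ) + W3 (η - ζ) := by
      rw [← sub_eq_zero, ← h3]; abel
    have h2 := congrArg norm this
    rw [norm_smul, Real.norm_eq_abs, abs_of_nonneg hlam0] at h2
    rw [h2]
    refine (norm_add_le _ _).trans (add_le_add ?_ ?_)
    · exact (c2 _).trans (by gcongr; exact norm_sub_le _ _)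
    · exact (c3 _).trans (by gcongr; exact norm_sub_le _ _)
  have p1 := norm_nonneg ξ
  have p2 := norm_nonneg η
  have p3 := norm_nonneg ζ
  rcases h with h | h | h
  · subst h
    have e4 : ‖η‖ ≤ N * (C * ‖ζ‖) := by
      have : W1 η = -W2 ζ := by
        simp only [zero_sub, map_neg, smul_zero, add_zero] at h1
        rw [← sub_eq_zero, ← neg_eq_zero, ← h1]; abel
      refine (n1 η).trans ?_
      rw [this, norm_neg]
      gcongr; exact c2 _
    simp only [norm_zero, zero_add] at e3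
    have e5 : C * ‖η‖ ≤ N * C ^ 2 * ‖ζ‖ := by nlinarith
    have e6 : ‖ζ‖ ≤ 0 := by nlinarith
    have e7 : ζ = 0 := norm_le_zero_iff.1 e6
    subst e7
    simp only [norm_zero, mul_zero] at e4
    exact ⟨rfl, norm_le_zero_iff.1 e4, rfl⟩
  · subst h
    simp only [norm_zero, zero_add, add_zero] at e1 e3
    have e6 : ‖ξ‖ + ‖ζ‖ ≤ 0 := by nlinarith
    exact ⟨norm_le_zero_iff.1 (by linarith), rfl, norm_le_zero_iff.1 (by linarith)⟩
  · subst h
    have e4 : ‖η‖ ≤ N * (C * ‖ξ‖) := by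
      have : W3 η = -W2 ξ := by
        simp only [sub_zero, smul_zero, add_zero] at h3
        rw [← sub_eq_zero, ← neg_eq_zero, ← h3]; abel
      refine (n3 η).trans ?_
      rw [this, norm_neg]
      gcongr; exact c2 _
    simp only [norm_zero, add_zero] at e1
    have e5 : C * ‖η‖ ≤ N * C ^ 2 * ‖ξ‖ := by nlinarith
    have e6 : ‖ξ‖ ≤ 0 := by nlinarith
    have e7 : ξ = 0 := norm_le_zero_iff.1 e6
    subst e7
    simp only [norm_zero, mul_zero] at e4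
    exact ⟨rfl, norm_le_zero_iff.1 e4, rfl⟩

omit [InnerProductSpace ℝ E] in
lemma exists_lower_bound [NormedSpace ℝ E] [FiniteDimensional ℝ E] (W : E →L[ℝ] E)
    (hW : Function.Injective W) : ∃ N : ℝ, 0 ≤ N ∧ ∀ v, ‖v‖ ≤ N * ‖W v‖ := by
  obtain ⟨K, -, hK⟩ := W.toLinearMap.exists_antilipschitzWith (LinearMap.ker_eq_bot.2 hW)
  refine ⟨K, K.2, fun v => ?_⟩
  have := hK.le_mul_dist v 0
  simpa using this

/-- the real three-body cost -/
noncomputable def cst (s : ℝ) (x y z : E) : ℝ := w s (x - y) + w s (x - z) + w s (y - z)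

theorem local_structure [FiniteDimensional ℝ E] {s : ℝ} (hs : 0 < s) {e : E} (he : e ≠ 0) :
    ∃ lam0 : ℝ, ∀ lam, lam0 ≤ lam → ∃ (f g : E → E) (v : E → ℝ) (r : ℝ), 0 < r ∧
      ContDiffAt ℝ ω f 0 ∧ ContDiffAt ℝ ω g 0 ∧ f 0 = e ∧ g 0 = -e ∧
      Function.Injective (fderiv ℝ f 0) ∧ Function.Injective (fderiv ℝ g 0) ∧
      Continuous v ∧ v (-e) = 0 ∧
      ∀ X ∈ ball (0 : E) r, ∀ x ∈ ball (0 : E) r, ∀ z ∈ ball (-e) r,
        cst s X (f X) (g X) + lam / 2 * ‖X‖ ^ 2 - v (g X) + ‖x - X‖ ^ 2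
          ≤ cst s x (f X) z + lam / 2 * ‖x‖ ^ 2 - v z := by
  have he1 : -e ≠ 0 := neg_ne_zero.2 he
  have he3 : e + e ≠ 0 := by
    rw [← two_smul ℝ e]; exact smul_ne_zero two_ne_zero he
  obtain ⟨K1, r1, hr1, hK1, t1⟩ := taylor_w s he1
  obtain ⟨K2, r2, hr2, hK2, t2⟩ := taylor_w s he
  obtain ⟨K3, r3, hr3, hK3, t3⟩ := taylor_w s he3
  set W1 := fderiv ℝ (G s) (-e) with hW1
  set W2 := fderiv ℝ (G s) e with hW2
  set W3 := fderiv ℝ (G s) (e + e) with hW3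
  obtain ⟨N1, hN1, n1⟩ := exists_lower_bound W1 (fderiv_G_injective hs he1)
  obtain ⟨N3, hN3, n3⟩ := exists_lower_bound W3 (fderiv_G_injective hs he3)
  set C := ‖W1‖ + ‖W2‖ + ‖W3‖ with hC
  have hC0 : 0 ≤ C := by positivity
  have cb : ∀ W : E →L[ℝ] E, ‖W‖ ≤ C → ∀ v, ‖W v‖ ≤ C * ‖v‖ := fun W hW v =>
    (W.le_opNorm v).trans (by gcongr)
  have c1 := cb W1 (by have := norm_nonneg W2; have := norm_nonneg W3; linarith)
  have c2 := cb W2 (by have := norm_nonneg W1; have := norm_nonneg W3; linarith)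
  have c3 := cb W3 (by have := norm_nonneg W2; have := norm_nonneg W1; linarith)
  have n1' : ∀ v, ‖v‖ ≤ (N1 + N3) * ‖W1 v‖ := fun v => (n1 v).trans (by gcongr; linarith)
  have n3' : ∀ v, ‖v‖ ≤ (N1 + N3) * ‖W3 v‖ := fun v => (n3 v).trans (by gcongr; linarith)
  refine ⟨6 * (K1 + K2 + K3) + 2 + (3 * C + (N1 + N3) * C ^ 2 + 1), fun lam hlam => ?_⟩
  have hNC : 0 ≤ (N1 + N3) * C ^ 2 := by positivity
  have hlam1 : 3 * C + (N1 + N3) * C ^ 2 + 1 ≤ lam := by linarith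
  have hlam2 : 6 * (K1 + K2 + K3) + 2 ≤ lam := by linarith
  have ker := lin_kernel W1 W2 W3 C (N1 + N3) lam hC0 (by linarith) c1 c2 c3 n1' n3' hlam1
  set ℓ : E := -G s e - G s (e + e) with hℓ
  let Ψ : E × E × E → E × E × E := fun p =>
    (p.1, G s (p.1 - p.2.1) + G s (p.1 - p.2.2) + lam • p.1,
      -G s (p.1 - p.2.2) - G s (p.2.1 - p.2.2) - ℓ + lam • (p.2.2 + e))
  let b : E × E × E := (0, e, -e)
  have hb12 : b.1 - b.2.1 = -e := by simp [b]
  have hb13 : b.1 - b.2.2 = e := by simp [b]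
  have hb23 : b.2.1 - b.2.2 = e + e := by simp [b]
  have hΨb : Ψ b = (0, 0, 0) := by
    simp only [Ψ, hb12, hb13, hb23, G_neg, hℓ]
    simp [b]
  have g12 : ContDiffAt ℝ ω (fun p : E × E × E => G s (p.1 - p.2.1)) b :=
    ContDiffAt.comp b (g := G s) (by rw [hb12]; exact contDiffAt_G s he1) (by fun_prop)
  have g13 : ContDiffAt ℝ ω (fun p : E × E × E => G s (p.1 - p.2.2)) b :=
    ContDiffAt.comp b (g := G s) (by rw [hb13]; exact contDiffAt_G s he) (by fun_prop)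
  have g23 : ContDiffAt ℝ ω (fun p : E × E × E => G s (p.2.1 - p.2.2)) b :=
    ContDiffAt.comp b (g := G s) (by rw [hb23]; exact contDiffAt_G s he3) (by fun_prop)
  have hΨ : ContDiffAt ℝ ω Ψ b := by
    refine ContDiffAt.prodMk (by fun_prop) (ContDiffAt.prodMk ?_ ?_)
    · exact (g12.add g13).add (by fun_prop)
    · exact ((g13.neg.sub g23).sub contDiffAt_const).add (by fun_prop)
  -- derivative
  let p1 : E × E × E →L[ℝ] E := ContinuousLinearMap.fst ℝ E (E × E)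
  let p2 : E × E × E →L[ℝ] E :=
    (ContinuousLinearMap.fst ℝ E E).comp (ContinuousLinearMap.snd ℝ E (E × E))
  let p3 : E × E × E →L[ℝ] E :=
    (ContinuousLinearMap.snd ℝ E E).comp (ContinuousLinearMap.snd ℝ E (E × E))
  have d12 : HasFDerivAt (fun p : E × E × E => G s (p.1 - p.2.1)) (W1.comp (p1 - p2)) b :=
    HasFDerivAt.comp b (g := G s)
      (by rw [hb12]; exact ((contDiffAt_G s he1).differentiableAt (by simp)).hasFDerivAt)
      (p1 - p2).hasFDerivAt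
  have d13 : HasFDerivAt (fun p : E × E × E => G s (p.1 - p.2.2)) (W2.comp (p1 - p3)) b :=
    HasFDerivAt.comp b (g := G s)
      (by rw [hb13]; exact ((contDiffAt_G s he).differentiableAt (by simp)).hasFDerivAt)
      (p1 - p3).hasFDerivAt
  have d23 : HasFDerivAt (fun p : E × E × E => G s (p.2.1 - p.2.2)) (W3.comp (p2 - p3)) b :=
    HasFDerivAt.comp b (g := G s)
      (by rw [hb23]; exact ((contDiffAt_G s he3).differentiableAt (by simp)).hasFDerivAt)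
      (p2 - p3).hasFDerivAt
  have dΨ : HasFDerivAt Ψ (p1.prod ((W1.comp (p1 - p2) + W2.comp (p1 - p3) + lam • p1).prod
      (-W2.comp (p1 - p3) - W3.comp (p2 - p3) + lam • p3))) b := by
    refine HasFDerivAt.prodMk p1.hasFDerivAt (HasFDerivAt.prodMk ?_ ?_)
    · exact (d12.add d13).add (p1.hasFDerivAt.const_smul lam)
    · exact ((d13.neg.sub d23).sub_const ℓ).add ((p3.hasFDerivAt.add_const e).const_smul lam)
  have dΨ' : ∀ q : E × E × E, fderiv ℝ Ψ b q = (q.1, W1 (q.1 - q.2.1) + W2 (q.1 - q.2.2) + lam • q.1,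
      -W2 (q.1 - q.2.2) - W3 (q.2.1 - q.2.2) + lam • q.2.2) := by
    intro q
    rw [dΨ.fderiv]
    rfl
  have hinj : Function.Injective (fderiv ℝ Ψ b) := by
    rw [injective_iff_map_eq_zero]
    intro q hq
    rw [dΨ'] at hq
    simp only [Prod.ext_iff, Prod.fst_zero, Prod.snd_zero] at hq
    obtain ⟨a1, a2, a3⟩ := ker q.1 q.2.1 q.2.2 hq.2.1 hq.2.2 (Or.inl hq.1)
    exact Prod.ext a1 (Prod.ext a2 a3)
  obtain ⟨Ψi, hΨi, hΨib, -, hright⟩ := exists_local_inverse hΨ hinj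
  rw [hΨb] at hΨi hΨib hright
  let ι : E →L[ℝ] E × E × E := ContinuousLinearMap.inl ℝ E (E × E)
  have hι0 : ι 0 = (0, 0, 0) := rfl
  let γ : E → E × E × E := fun x => Ψi (ι x)
  have hγ : ContDiffAt ℝ ω γ 0 :=
    ContDiffAt.comp 0 (g := Ψi) (by rw [hι0]; exact hΨi) ι.contDiff.contDiffAt
  have hγ0 : γ 0 = b := hΨib
  have hγΨ : ∀ᶠ x in 𝓝 (0 : E), Ψ (γ x) = ι x := by
    have : Tendsto ι (𝓝 0) (𝓝 (0, 0, 0)) := hι0 ▸ ι.continuous.tendsto 0
    exact this.eventually hright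
  have dγ : HasFDerivAt γ (fderiv ℝ γ 0) 0 := (hγ.differentiableAt (by simp)).hasFDerivAt
  have dcomp : (fderiv ℝ Ψ b).comp (fderiv ℝ γ 0) = ι := by
    have h1 : HasFDerivAt (fun x => Ψ (γ x)) ((fderiv ℝ Ψ b).comp (fderiv ℝ γ 0)) 0 :=
      HasFDerivAt.comp 0 (g := Ψ)
        (by rw [hγ0]; exact (hΨ.differentiableAt (by simp)).hasFDerivAt) dγ
    have h2 : HasFDerivAt (fun x => Ψ (γ x)) ι 0 :=
      ι.hasFDerivAt.congr_of_eventuallyEq hγΨ
    exact h1.unique h2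
  have dker : ∀ ξ : E, ((fderiv ℝ γ 0 ξ).2.1 = 0 ∨ (fderiv ℝ γ 0 ξ).2.2 = 0) → ξ = 0 := by
    intro ξ hξ
    have h1 : fderiv ℝ Ψ b (fderiv ℝ γ 0 ξ) = (ξ, 0, 0) := by
      have := congrArg (fun L => L ξ) dcomp
      exact this
    rw [dΨ'] at h1
    simp only [Prod.ext_iff] at h1
    obtain ⟨a1, -, -⟩ := ker _ _ _ h1.2.1 h1.2.2 (Or.inr hξ)
    rw [← h1.1, a1]
  have hf : ContDiffAt ℝ ω (fun x => (γ x).2.1) 0 := hγ.snd.fst
  have hg : ContDiffAt ℝ ω (fun x => (γ x).2.2) 0 := hγ.snd.snd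
  have hf0 : (γ 0).2.1 = e := by rw [hγ0]
  have hg0 : (γ 0).2.2 = -e := by rw [hγ0]
  set ρ := min r1 (min r2 r3) / 2 with hρ
  have hρ0 : 0 < ρ := by positivity
  have hρ1 : 2 * ρ ≤ r1 := by have := min_le_left r1 (min r2 r3); linarith
  have hρ2 : 2 * ρ ≤ r2 := by
    have := min_le_right r1 (min r2 r3); have := min_le_left r2 r3; linarith
  have hρ3 : 2 * ρ ≤ r3 := by
    have := min_le_right r1 (min r2 r3); have := min_le_right r2 r3; linarith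
  have ev1 : ∀ᶠ x in 𝓝 (0 : E), (γ x).2.1 ∈ ball e ρ :=
    hf.continuousAt.eventually (by simp only [hf0]; exact ball_mem_nhds _ hρ0)
  have ev2 : ∀ᶠ x in 𝓝 (0 : E), (γ x).2.2 ∈ ball (-e) ρ :=
    hg.continuousAt.eventually (by simp only [hg0]; exact ball_mem_nhds _ hρ0)
  obtain ⟨r0, hr0, hball⟩ := Metric.eventually_nhds_iff_ball.1 (hγΨ.and (ev1.and ev2))
  refine ⟨fun x => (γ x).2.1, fun x => (γ x).2.2,
    fun z => ⟪ℓ, z + e⟫ - lam / 2 * ‖z + e‖ ^ 2, min r0 ρ, lt_min hr0 hρ0, hf, hg, hf0, hg0,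
    ?_, ?_, by fun_prop, by simp, ?_⟩
  · rw [injective_iff_map_eq_zero]
    intro ξ hξ
    apply dker ξ (Or.inl _)
    rw [(dγ.snd.fst).fderiv] at hξ
    exact hξ
  · rw [injective_iff_map_eq_zero]
    intro ξ hξ
    apply dker ξ (Or.inr _)
    rw [(dγ.snd.snd).fderiv] at hξ
    exact hξ
  · intro X hX x hx z hz
    beta_reduce
    obtain ⟨q1, q2, q3⟩ := hball X (ball_subset_ball (min_le_left _ _) hX)
    have hX' : ‖X‖ < ρ := by simpa using ball_subset_ball (min_le_right _ _) hX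
    have hx' : ‖x‖ < ρ := by simpa using ball_subset_ball (min_le_right _ _) hx
    have hz' : ‖z + e‖ < ρ := by
      simpa [dist_eq_norm] using ball_subset_ball (min_le_right _ _) hz
    generalize hy : (γ X).2.1 = y at *
    generalize hZ : (γ X).2.2 = Z at *
    have hy' : ‖y - e‖ < ρ := by simpa [dist_eq_norm] using q2
    have hZ' : ‖Z + e‖ < ρ := by simpa [dist_eq_norm] using q3
    have q1' : Ψ (γ X) = (X, 0, 0) := q1
    simp only [Ψ, Prod.ext_iff, hy, hZ] at q1'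
    obtain ⟨q11, q12, q13⟩ := q1'
    rw [q11] at q12 q13
    have m1 : ∀ x : E, ‖x‖ < ρ → x - y ∈ ball (-e) r1 := fun x hx => by
      rw [mem_ball, dist_eq_norm]
      have : x - y - -e = x - (y - e) := by abel
      rw [this]
      exact (norm_sub_le _ _).trans_lt (by linarith)
    have m2 : ∀ x z : E, ‖x‖ < ρ → ‖z + e‖ < ρ → x - z ∈ ball e r2 := fun x z hx hz => by
      rw [mem_ball, dist_eq_norm]
      have : x - z - e = x - (z + e) := by abel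
      rw [this]
      exact (norm_sub_le _ _).trans_lt (by linarith)
    have m3 : ∀ z : E, ‖z + e‖ < ρ → y - z ∈ ball (e + e) r3 := fun z hz => by
      rw [mem_ball, dist_eq_norm]
      have : y - z - (e + e) = (y - e) - (z + e) := by abel
      rw [this]
      exact (norm_sub_le _ _).trans_lt (by linarith)
    have i1 := t1 _ (m1 X hX') _ (m1 x hx')
    have i2 := t2 _ (m2 X Z hX' hZ') _ (m2 x z hx' hz')
    have i3 := t3 _ (m3 Z hZ') _ (m3 z hz')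
    set ξ := x - X with hξ
    set ζ := z - Z with hζ
    have j1 : x - y - (X - y) = ξ := by rw [hξ]; abel
    have j2 : x - z - (X - Z) = ξ - ζ := by rw [hξ, hζ]; abel
    have j3 : y - z - (y - Z) = -ζ := by rw [hζ]; abel
    rw [j1] at i1
    rw [j2, inner_sub_right] at i2
    rw [j3, inner_neg_right, norm_neg] at i3
    have k1 : ‖x‖ ^ 2 = ‖X‖ ^ 2 + 2 * ⟪X, ξ⟫ + ‖ξ‖ ^ 2 := by
      rw [← norm_add_sq_real]; congr 2; rw [hξ]; abel
    have k2 : ‖z + e‖ ^ 2 = ‖Z + e‖ ^ 2 + 2 * ⟪Z + e, ζ⟫ + ‖ζ‖ ^ 2 := by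
      rw [← norm_add_sq_real]; congr 2; rw [hζ]; abel
    have k3 : ⟪ℓ, z + e⟫ = ⟪ℓ, Z + e⟫ + ⟪ℓ, ζ⟫ := by
      rw [← inner_add_right]; congr 1; rw [hζ]; abel
    have k4 := congrArg (fun u => ⟪u, ξ⟫) q12
    have k5 := congrArg (fun u => ⟪u, ζ⟫) q13
    simp only [inner_add_left, inner_sub_left, inner_neg_left, real_inner_smul_left,
      inner_zero_left] at k4 k5
    have k6 : ‖ξ - ζ‖ ^ 2 ≤ 2 * ‖ξ‖ ^ 2 + 2 * ‖ζ‖ ^ 2 := by
      have := norm_sub_le ξ ζ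
      have h0 := norm_nonneg (ξ - ζ)
      nlinarith [sq_nonneg (‖ξ‖ - ‖ζ‖), norm_nonneg ξ, norm_nonneg ζ]
    simp only [cst]
    rw [k1, k2, k3, inner_add_left Z e ζ]
    have k7 : K2 * ‖ξ - ζ‖ ^ 2 ≤ K2 * (2 * ‖ξ‖ ^ 2 + 2 * ‖ζ‖ ^ 2) := by gcongr
    have a1 := sq_nonneg ‖ξ‖
    have a2 := sq_nonneg ‖ζ‖
    have k8 : (K1 + 2 * K2 + 1) * ‖ξ‖ ^ 2 ≤ lam / 2 * ‖ξ‖ ^ 2 := by gcongr; linarith
    have k9 : (K3 + 2 * K2) * ‖ζ‖ ^ 2 ≤ lam / 2 * ‖ζ‖ ^ 2 := by gcongr; linarith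
    clear_value ξ ζ ℓ
    clear * - i1 i2 i3 k4 k5 k7 k8 k9
    linarith

end Crest.Agent.R130
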