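import Mathlib
import Crest.Agent.R130.Calc

/-!
Push-forward of a smooth squared density by a local analytic diffeomorphism (row 130).
-/

open Set Filter Topology Metric MeasureTheory
open scoped ContDiff ENNReal

namespace Crest.Agent.R130

variable {E : Type*} [NormedAddCommGroup E] [NormedSpace ℝ E] [FiniteDimensional ℝ E]

lemma contDiff_det (n : WithTop ℕ∞) : ContDiff ℝ n (fun A : E →L[ℝ] E => A.det) := by
  classical
  let b := Module.finBasis ℝ E
  have e : (fun A : E →L[ℝ] E => A.det) = fun A : E →L[ℝ] E =>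
      ∑ σ : Equiv.Perm (Fin (Module.finrank ℝ E)),
        ((Equiv.Perm.sign σ : ℤ) : ℝ) * ∏ i, b.coord (σ i) (A (b i)) := by
    funext A
    change LinearMap.det (A : E →ₗ[ℝ] E) = _
    rw [← LinearMap.det_toMatrix b, Matrix.det_apply']
    simp [LinearMap.toMatrix_apply]
  rw [e]
  refine ContDiff.sum fun σ _ => contDiff_const.mul (contDiff_prod fun i _ => ?_)
  exact ((b.coord (σ i)).toContinuousLinearMap.comp
    (ContinuousLinearMap.apply ℝ E (b i))).contDiff

theorem push_density [MeasurableSpace E] [BorelSpace E] (m : Measure E) [m.IsAddHaarMeasure]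
    {f : E → E} {a : E} (hf : ContDiffAt ℝ ω f a) (hinj : Function.Injective (fderiv ℝ f a)) :
    ∃ r : ℝ, 0 < r ∧ ∃ F g : E → E, Measurable F ∧ Measurable g ∧ (∀ x ∈ ball a r, F x = f x) ∧
      ContinuousOn f (ball a r) ∧ (∀ x ∈ ball a r, g (f x) = x) ∧
      ∀ φ : E → ℝ, ContDiff ℝ ∞ φ → (∀ x, 0 ≤ φ x) → HasCompactSupport φ → tsupport φ ⊆ ball a r →
        ∃ ψ : E → ℝ, ContDiff ℝ ∞ ψ ∧ (∀ x, 0 ≤ ψ x) ∧ HasCompactSupport ψ ∧
          Function.support ψ ⊆ f '' tsupport φ ∧
          (m.withDensity fun x => ENNReal.ofReal (φ x ^ 2)).map F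
            = m.withDensity fun y => ENNReal.ofReal (ψ y ^ 2) := by
  classical
  obtain ⟨gi, hgi, hgia, hleft, hright⟩ := exists_local_inverse hf hinj
  have hω : (ω : WithTop ℕ∞) ≠ (∞ : WithTop ℕ∞) := by simp
  have e1 : ∀ᶠ y in 𝓝 (f a), ContDiffAt ℝ ω gi y := hgi.eventually hω
  have e2 : ∀ᶠ x in 𝓝 a, ContDiffAt ℝ ω f x := hf.eventually hω
  have e3 : ∀ᶠ y in 𝓝 (f a), ContDiffAt ℝ ω f (gi y) := by
    have : Tendsto gi (𝓝 (f a)) (𝓝 a) := by
      have := hgi.continuousAt.tendsto
      rwa [hgia] at this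
    exact this.eventually e2
  obtain ⟨ρ, hρ, hV⟩ := Metric.eventually_nhds_iff_ball.1
    (e1.and (e3.and (hright.and hright.eventually_nhds)))
  set V := ball (f a) ρ with hVdef
  have e4 : ∀ᶠ x in 𝓝 a, f x ∈ V := hf.continuousAt.eventually (ball_mem_nhds _ hρ)
  obtain ⟨r, hr, hU⟩ := Metric.eventually_nhds_iff_ball.1 (e2.and (hleft.and e4))
  have hfc : ContinuousOn f (ball a r) := fun x hx => (hU x hx).1.continuousAt.continuousWithinAt
  have hgc : ContinuousOn gi V := fun y hy => (hV y hy).1.continuousAt.continuousWithinAt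
  have hdet : ∀ y ∈ V, (fderiv ℝ gi y).det ≠ 0 := by
    intro y hy
    obtain ⟨a1, a2, -, a4⟩ := hV y hy
    have d1 := (a1.differentiableAt (by simp)).hasFDerivAt
    have d2 := (a2.differentiableAt (by simp)).hasFDerivAt
    have d3 : HasFDerivAt (fun z => f (gi z)) ((fderiv ℝ f (gi y)).comp (fderiv ℝ gi y)) y :=
      d2.comp y d1
    have d4 : HasFDerivAt (fun z => f (gi z)) (ContinuousLinearMap.id ℝ E) y :=
      (hasFDerivAt_id y).congr_of_eventuallyEq a4
    have d5 := d3.unique d4
    intro h0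
    have d6 : LinearMap.det ((fderiv ℝ f (gi y) : E →ₗ[ℝ] E) ∘ₗ (fderiv ℝ gi y : E →ₗ[ℝ] E)) = 1 := by
      have : ((fderiv ℝ f (gi y) : E →ₗ[ℝ] E) ∘ₗ (fderiv ℝ gi y : E →ₗ[ℝ] E)) = LinearMap.id := by
        ext v
        exact congrArg (fun L : E →L[ℝ] E => L v) d5
      rw [this, LinearMap.det_id]
    rw [LinearMap.det_comp] at d6
    have h0' : LinearMap.det (fderiv ℝ gi y : E →ₗ[ℝ] E) = 0 := h0
    rw [h0', mul_zero] at d6
    exact zero_ne_one d6
  refine ⟨r, hr, (ball a r).piecewise f (fun _ => 0), V.piecewise gi (fun _ => 0),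
    hfc.measurable_piecewise continuousOn_const measurableSet_ball,
    hgc.measurable_piecewise continuousOn_const measurableSet_ball,
    fun x hx => piecewise_eq_of_mem _ _ _ hx, hfc, fun x hx => ?_, ?_⟩
  · rw [piecewise_eq_of_mem _ _ _ (hU x hx).2.2]; exact (hU x hx).2.1
  intro φ hφ hφ0 hφc hφs
  let ψ : E → ℝ := fun y => if y ∈ V then φ (gi y) * Real.sqrt |(fderiv ℝ gi y).det| else 0
  have hK : IsCompact (f '' tsupport φ) := hφc.isCompact.image_of_continuousOn (hfc.mono hφs)
  have hsupp : Function.support ψ ⊆ f '' tsupport φ := by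
    intro y hy
    by_cases hyV : y ∈ V
    · simp only [ψ, Function.mem_support, hyV, if_true] at hy
      exact ⟨gi y, subset_tsupport _ (left_ne_zero_of_mul hy), (hV y hyV).2.2.1⟩
    · simp [ψ, hyV] at hy
  refine ⟨ψ, ?_, ?_, HasCompactSupport.intro' hK hK.isClosed ?_, hsupp, ?_⟩
  · rw [contDiff_iff_contDiffAt]
    intro y
    by_cases hyV : y ∈ V
    · have h1 : ContDiffAt ℝ ∞ (fun y => φ (gi y) * Real.sqrt |(fderiv ℝ gi y).det|) y := by
        have a1 := (hV y hyV).1
        apply ContDiffAt.mul (hφ.contDiffAt.comp y (a1.of_le le_top))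
        have a2 : ContDiffAt ℝ ∞ (fun y => (fderiv ℝ gi y).det) y :=
          (contDiff_det ∞).contDiffAt.comp y (a1.fderiv_right le_top)
        exact (a2.abs (hdet y hyV)).sqrt (abs_ne_zero.2 (hdet y hyV))
      apply h1.congr_of_eventuallyEq
      filter_upwards [isOpen_ball.mem_nhds hyV] with z hz
      simp only [ψ]; rw [if_pos hz]
    · have hy : y ∉ f '' tsupport φ := by
        rintro ⟨x, hx, rfl⟩
        exact hyV (hU x (hφs hx)).2.2
      apply (contDiffAt_const (c := (0 : ℝ))).congr_of_eventuallyEq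
      filter_upwards [hK.isClosed.isOpen_compl.mem_nhds hy] with z hz
      by_contra hne
      exact hz (hsupp hne)
  · intro y
    simp only [ψ]
    split_ifs
    · exact mul_nonneg (hφ0 _) (Real.sqrt_nonneg _)
    · exact le_rfl
  · intro y hy
    by_contra hne
    exact hy (hsupp hne)
  · have mF : Measurable ((ball a r).piecewise f (fun _ => (0 : E))) :=
      hfc.measurable_piecewise continuousOn_const measurableSet_ball
    ext t ht
    rw [Measure.map_apply mF ht, withDensity_apply _ (mF ht), withDensity_apply _ ht]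
    have mtV : MeasurableSet (t ∩ V) := ht.inter measurableSet_ball
    have hinjV : InjOn gi (t ∩ V) := fun y hy z hz h => by
      rw [← (hV y hy.2).2.2.1, ← (hV z hz.2).2.2.1, h]
    have hder : ∀ y ∈ t ∩ V, HasFDerivWithinAt gi (fderiv ℝ gi y) (t ∩ V) y := fun y hy =>
      ((hV y hy.2).1.differentiableAt (by simp)).hasFDerivAt.hasFDerivWithinAt
    have cv := lintegral_image_eq_lintegral_abs_det_fderiv_mul m mtV hder hinjV
      (fun x => ENNReal.ofReal (φ x ^ 2))
    have mI : MeasurableSet (gi '' (t ∩ V)) := measurable_image_of_fderivWithin mtV hder hinjV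
    have s1 : ∫⁻ x in (ball a r).piecewise f (fun _ => (0 : E)) ⁻¹' t, ENNReal.ofReal (φ x ^ 2) ∂m
        = ∫⁻ x in gi '' (t ∩ V), ENNReal.ofReal (φ x ^ 2) ∂m := by
      rw [← lintegral_indicator (mF ht), ← lintegral_indicator mI]
      congr 1
      funext x
      by_cases hx : x ∈ ball a r
      · have : x ∈ (ball a r).piecewise f (fun _ => (0 : E)) ⁻¹' t ↔ x ∈ gi '' (t ∩ V) := by
          rw [mem_preimage, piecewise_eq_of_mem _ _ _ hx]
          constructor
          · intro h
            exact ⟨f x, ⟨h, (hU x hx).2.2⟩, (hU x hx).2.1⟩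
          · rintro ⟨y, hy, rfl⟩
            rw [(hV y hy.2).2.2.1]; exact hy.1
        simp only [indicator, this]
      · have : φ x = 0 := by
          by_contra hne
          exact hx (hφs (subset_tsupport _ hne))
        simp [indicator, this]
    rw [s1, cv, ← lintegral_indicator mtV, ← lintegral_indicator ht]
    congr 1
    funext y
    by_cases hyt : y ∈ t
    · by_cases hyV : y ∈ V
      · rw [indicator_of_mem (show y ∈ t ∩ V from ⟨hyt, hyV⟩), indicator_of_mem hyt]
        simp only [ψ, hyV, if_true]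
        rw [mul_pow, Real.sq_sqrt (abs_nonneg _), ← ENNReal.ofReal_mul (abs_nonneg _), mul_comm]
      · rw [indicator_of_notMem (fun h : y ∈ t ∩ V => hyV h.2), indicator_of_mem hyt]
        simp [ψ, hyV]
    · rw [indicator_of_notMem (fun h : y ∈ t ∩ V => hyt h.1), indicator_of_notMem hyt]

end Crest.Agent.R130
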