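import Mathlib
import Crest.Prelude.Def_MultiMarginal
import Crest.Agent.R130.Calc
import Crest.Agent.R130.Push

/-!
One branch (a collinear triple) of the five-region configuration, and cost estimates (row 130).
-/

open Set Filter Topology Metric MeasureTheory
open scoped ContDiff ENNReal RealInnerProductSpace
open Crest.AnalysisR.OT

namespace Crest.Agent.R130

variable {E : Type*} [NormedAddCommGroup E] [InnerProductSpace ℝ E] [FiniteDimensional ℝ E]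
  [MeasurableSpace E] [BorelSpace E]

/-- the push-forward property of a map on a ball -/
def PushOK (m : Measure E) (F : E → E) (r : ℝ) : Prop :=
  ∀ φ : E → ℝ, ContDiff ℝ ∞ φ → (∀ x, 0 ≤ φ x) → HasCompactSupport φ → tsupport φ ⊆ ball 0 r →
    ∃ ψ : E → ℝ, ContDiff ℝ ∞ ψ ∧ (∀ x, 0 ≤ ψ x) ∧ HasCompactSupport ψ ∧
      Function.support ψ ⊆ F '' tsupport φ ∧
      (m.withDensity fun x => ENNReal.ofReal (φ x ^ 2)).map F
        = m.withDensity fun y => ENNReal.ofReal (ψ y ^ 2)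

/-- data of one branch -/
structure Branch (m : Measure E) (s lam : ℝ) (e : E) where
  f : E → E
  g : E → E
  fi : E → E
  gi : E → E
  v : E → ℝ
  r : ℝ
  r_pos : 0 < r
  mf : Measurable f
  mg : Measurable g
  mfi : Measurable fi
  mgi : Measurable gi
  cv : Continuous v
  v0 : v (-e) = 0
  cf : ContinuousAt f 0
  cg : ContinuousAt g 0
  f0 : f 0 = e
  g0 : g 0 = -e
  fif : ∀ x ∈ ball (0 : E) r, fi (f x) = x
  gig : ∀ x ∈ ball (0 : E) r, gi (g x) = x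
  ineq : ∀ X ∈ ball (0 : E) r, ∀ x ∈ ball (0 : E) r, ∀ z ∈ ball (-e) r,
    cst s X (f X) (g X) + lam / 2 * ‖X‖ ^ 2 - v (g X) + ‖x - X‖ ^ 2
      ≤ cst s x (f X) z + lam / 2 * ‖x‖ ^ 2 - v z
  pf : PushOK m f r
  pg : PushOK m g r

theorem exists_branch (m : Measure E) [m.IsAddHaarMeasure] {s : ℝ} (hs : 0 < s) {e : E}
    (he : e ≠ 0) : ∃ lam0 : ℝ, ∀ lam, lam0 ≤ lam → Nonempty (Branch m s lam e) := by
  obtain ⟨lam0, h⟩ := local_structure hs he
  refine ⟨lam0, fun lam hlam => ?_⟩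
  obtain ⟨f, g, v, r, hr, hf, hg, f0, g0, jf, jg, cv, v0, hin⟩ := h lam hlam
  obtain ⟨r1, hr1, F, fi, mF, mfi, hF, -, hfi, pF⟩ := push_density m hf jf
  obtain ⟨r2, hr2, G', gi, mG, mgi, hG, -, hgi, pG⟩ := push_density m hg jg
  have s0 : ball (0 : E) (min r (min r1 r2)) ⊆ ball 0 r := ball_subset_ball (min_le_left _ _)
  have s1 : ball (0 : E) (min r (min r1 r2)) ⊆ ball 0 r1 :=
    ball_subset_ball ((min_le_right _ _).trans (min_le_left _ _))
  have s2 : ball (0 : E) (min r (min r1 r2)) ⊆ ball 0 r2 :=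
    ball_subset_ball ((min_le_right _ _).trans (min_le_right _ _))
  refine ⟨⟨F, G', fi, gi, v, min r (min r1 r2), lt_min hr (lt_min hr1 hr2), mF, mG, mfi, mgi, cv,
    v0, ?_, ?_, ?_, ?_, ?_, ?_, ?_, ?_, ?_⟩⟩
  · apply hf.continuousAt.congr
    filter_upwards [ball_mem_nhds 0 hr1] with x hx using (hF x hx).symm
  · apply hg.continuousAt.congr
    filter_upwards [ball_mem_nhds 0 hr2] with x hx using (hG x hx).symm
  · rw [hF 0 (mem_ball_self hr1), f0]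
  · rw [hG 0 (mem_ball_self hr2), g0]
  · intro x hx; rw [hF x (s1 hx), hfi x (s1 hx)]
  · intro x hx; rw [hG x (s2 hx), hgi x (s2 hx)]
  · intro X hX x hx z hz
    rw [hF X (s1 hX), hG X (s2 hX)]
    exact hin X (s0 hX) x (s0 hx) z (ball_subset_ball (min_le_left _ _) hz)
  · intro φ h1 h2 h3 h4
    obtain ⟨ψ, a1, a2, a3, a4, a5⟩ := pF φ h1 h2 h3 (h4.trans s1)
    refine ⟨ψ, a1, a2, a3, a4.trans ?_, a5⟩
    rintro _ ⟨x, hx, rfl⟩
    exact ⟨x, hx, hF x (s1 (h4 hx))⟩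
  · intro φ h1 h2 h3 h4
    obtain ⟨ψ, a1, a2, a3, a4, a5⟩ := pG φ h1 h2 h3 (h4.trans s2)
    refine ⟨ψ, a1, a2, a3, a4.trans ?_, a5⟩
    rintro _ ⟨x, hx, rfl⟩
    exact ⟨x, hx, hG x (s2 (h4 hx))⟩

section Cost

variable {F : Type*} [NormedAddCommGroup F]

lemma pairCost_ge {s : ℝ} (hs : 0 < s) {x y : F} {R : ℝ} (hR : 0 < R) (h : ‖x - y‖ ≤ R) :
    ENNReal.ofReal (R ^ (-s)) ≤ pairCost s x y := by
  unfold pairCost
  rw [← ENNReal.ofReal_rpow_of_pos hR, ENNReal.rpow_neg, ENNReal.rpow_neg]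
  exact ENNReal.inv_le_inv.2 (ENNReal.rpow_le_rpow (ENNReal.ofReal_le_ofReal h) hs.le)

lemma pairCost_le {s : ℝ} (hs : 0 < s) {x y : F} {R : ℝ} (hR : 0 < R) (h : R ≤ ‖x - y‖) :
    pairCost s x y ≤ ENNReal.ofReal (R ^ (-s)) := by
  unfold pairCost
  rw [← ENNReal.ofReal_rpow_of_pos hR, ENNReal.rpow_neg, ENNReal.rpow_neg]
  exact ENNReal.inv_le_inv.2 (ENNReal.rpow_le_rpow (ENNReal.ofReal_le_ofReal h) hs.le)

lemma pairCost_eq (s : ℝ) {x y : F} (h : x ≠ y) :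
    pairCost s x y = ENNReal.ofReal (w s (x - y)) := by
  unfold pairCost w
  rw [ENNReal.ofReal_rpow_of_pos (norm_pos_iff.2 (sub_ne_zero.2 h))]

lemma w_nonneg (s : ℝ) (p : F) : 0 ≤ w s p := Real.rpow_nonneg (norm_nonneg _) _

lemma tripleCost_eq (s : ℝ) {x y z : F} (h1 : x ≠ y) (h2 : x ≠ z) (h3 : y ≠ z) :
    tripleCost s (x, y, z) = ENNReal.ofReal (cst s x y z) := by
  unfold tripleCost cst
  simp only
  rw [pairCost_eq s h1, pairCost_eq s h2, pairCost_eq s h3,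
    ENNReal.ofReal_add (add_nonneg (w_nonneg _ _) (w_nonneg _ _)) (w_nonneg _ _),
    ENNReal.ofReal_add (w_nonneg _ _) (w_nonneg _ _)]

lemma pairCost_comm (s : ℝ) (x y : F) : pairCost s x y = pairCost s y x := by
  unfold pairCost; rw [norm_sub_rev]

lemma tripleCost_cyc (s : ℝ) (x y z : F) : tripleCost s (y, z, x) = tripleCost s (x, y, z) := by
  unfold tripleCost
  simp only
  rw [pairCost_comm s y x, pairCost_comm s z x]
  ring

lemma tripleCost_swap (s : ℝ) (x y z : F) : tripleCost s (x, z, y) = tripleCost s (x, y, z) := by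
  unfold tripleCost
  simp only
  rw [pairCost_comm s z y]
  ring

lemma continuous_pairCost (s : ℝ) : Continuous (fun p : F × F => pairCost s p.1 p.2) := by
  unfold pairCost
  exact ENNReal.continuous_rpow_const.comp
    (ENNReal.continuous_ofReal.comp (continuous_fst.sub continuous_snd).norm)

lemma continuous_tripleCost (s : ℝ) : Continuous (tripleCost s : F × F × F → ℝ≥0∞) := by
  unfold tripleCost
  have h := continuous_pairCost (F := F) s
  refine ((h.comp (f := fun p : F × F × F => (p.1, p.2.1)) (by fun_prop)).add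
    (h.comp (f := fun p : F × F × F => (p.1, p.2.2)) (by fun_prop))).add
    (h.comp (f := fun p : F × F × F => (p.2.1, p.2.2)) (by fun_prop))

lemma tripleCost_ge {s : ℝ} (hs : 0 < s) {x y z : F} {R1 R2 R3 : ℝ} (h1 : 0 < R1) (h2 : 0 < R2)
    (h3 : 0 < R3) (a1 : ‖x - y‖ ≤ R1) (a2 : ‖x - z‖ ≤ R2) (a3 : ‖y - z‖ ≤ R3) :
    ENNReal.ofReal (R1 ^ (-s) + R2 ^ (-s) + R3 ^ (-s)) ≤ tripleCost s (x, y, z) := by
  rw [ENNReal.ofReal_add (by positivity) (by positivity),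
    ENNReal.ofReal_add (by positivity) (by positivity)]
  exact add_le_add (add_le_add (pairCost_ge hs h1 a1) (pairCost_ge hs h2 a2)) (pairCost_ge hs h3 a3)

end Cost

/-- choice of the numerical constants -/
lemma exists_constants {s : ℝ} (hs : 0 < s) : ∃ U η δ : ℝ, 0 < η ∧ η ≤ U ∧ U ≤ 1 / 2 ∧ 0 < δ ∧
    δ ≤ 1 / 4 ∧ U + η < (3 : ℝ) ^ (-s) ∧ 9 < (2 * δ) ^ (-s) ∧
    2 + (2 : ℝ) ^ (-s) + 3 * η
      < (1 + 2 * δ) ^ (-s) + (1 + 2 * δ) ^ (-s) + (Real.sqrt 2 + 2 * δ) ^ (-s) := by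
  have h3 : 0 < (3 : ℝ) ^ (-s) := by positivity
  have h3' : (3 : ℝ) ^ (-s) ≤ 1 := Real.rpow_le_one_of_one_le_of_nonpos (by norm_num) (by linarith)
  have hsq : 0 < Real.sqrt 2 := by positivity
  have hsq2 : Real.sqrt 2 < 2 := by
    rw [Real.sqrt_lt' (by norm_num)]; norm_num
  have hgap : (2 : ℝ) ^ (-s) < (Real.sqrt 2) ^ (-s) :=
    Real.rpow_lt_rpow_of_neg hsq hsq2 (by linarith)
  set η := min ((3 : ℝ) ^ (-s) / 4) (((Real.sqrt 2) ^ (-s) - (2 : ℝ) ^ (-s)) / 4) with hη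
  have hη0 : 0 < η := lt_min (by positivity) (by linarith)
  have hη1 : η ≤ (3 : ℝ) ^ (-s) / 4 := min_le_left _ _
  have hη2 : η ≤ ((Real.sqrt 2) ^ (-s) - (2 : ℝ) ^ (-s)) / 4 := min_le_right _ _
  have c1 : ContinuousAt (fun δ : ℝ =>
      (1 + 2 * δ) ^ (-s) + (1 + 2 * δ) ^ (-s) + (Real.sqrt 2 + 2 * δ) ^ (-s)) 0 := by
    have a1 : ContinuousAt (fun δ : ℝ => (1 + 2 * δ) ^ (-s)) 0 :=
      ContinuousAt.rpow_const (by fun_prop) (Or.inl (by norm_num))
    have a2 : ContinuousAt (fun δ : ℝ => (Real.sqrt 2 + 2 * δ) ^ (-s)) 0 :=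
      ContinuousAt.rpow_const (by fun_prop) (Or.inl (by simp))
    exact (a1.add a1).add a2
  have e1 : ∀ᶠ δ in 𝓝 (0 : ℝ), 2 + (2 : ℝ) ^ (-s) + 3 * η
      < (1 + 2 * δ) ^ (-s) + (1 + 2 * δ) ^ (-s) + (Real.sqrt 2 + 2 * δ) ^ (-s) := by
    apply c1.eventually (lt_mem_nhds _)
    simp only [mul_zero, add_zero, Real.one_rpow]
    linarith
  have e2 : ∀ᶠ δ in 𝓝[>] (0 : ℝ), 9 < (2 * δ) ^ (-s) := by
    have t1 : Tendsto (fun δ : ℝ => 2 * δ) (𝓝[>] 0) (𝓝[>] 0) := by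
      apply tendsto_nhdsWithin_of_tendsto_nhds_of_eventually_within
      · have : Tendsto (fun δ : ℝ => 2 * δ) (𝓝 0) (𝓝 (2 * 0)) :=
          (continuous_const.mul continuous_id).tendsto 0
        rw [mul_zero] at this
        exact this.mono_left nhdsWithin_le_nhds
      · filter_upwards [self_mem_nhdsWithin] with δ hδ
        have : (0 : ℝ) < δ := hδ
        change (0 : ℝ) < 2 * δ
        linarith
    exact ((tendsto_rpow_neg_nhdsGT_zero (by linarith : -s < 0)).comp t1).eventually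
      (eventually_gt_atTop 9)
  have e3 : ∀ᶠ δ in 𝓝 (0 : ℝ), δ ≤ 1 / 4 := eventually_le_nhds (by norm_num)
  obtain ⟨δ, h1, h2, h4, h5⟩ := ((e1.filter_mono nhdsWithin_le_nhds).and
    (e2.and ((e3.filter_mono nhdsWithin_le_nhds).and self_mem_nhdsWithin))).exists
  exact ⟨(3 : ℝ) ^ (-s) / 2, η, δ, hη0, by linarith, by linarith, h5, h4, by linarith, h2, h1⟩

end Crest.Agent.R130
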