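import Mathlib
import Crest.Prelude.Def_MultiMarginal
import Crest.Agent.R130.Abstract
import Crest.Agent.R130.Branch

/-!
Assembly of the five-region configuration (row 130).
-/

open Set Filter Topology Metric MeasureTheory
open scoped ContDiff ENNReal RealInnerProductSpace
open Crest.AnalysisR.OT

namespace Crest.Agent.R130

variable {E : Type*} [NormedAddCommGroup E] [InnerProductSpace ℝ E] [FiniteDimensional ℝ E]
  [MeasurableSpace E] [BorelSpace E]

/-- potential on the central region -/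
noncomputable def p1 (lam U1 : ℝ) (x : E) : ℝ := U1 - lam / 2 * ‖x‖ ^ 2

namespace Branch

variable {m : Measure E} {s lam : ℝ} {e : E} (b : Branch m s lam e)

/-- potential on the third region -/
noncomputable def p3 (U : ℝ) (z : E) : ℝ := U + b.v z

/-- potential on the second region -/
noncomputable def p2 (U1 U : ℝ) (y : E) : ℝ :=
  cst s (b.fi y) y (b.g (b.fi y)) - p1 lam U1 (b.fi y) - b.p3 U (b.g (b.fi y))

lemma measurable_p3 (U : ℝ) : Measurable (b.p3 U) := measurable_const.add b.cv.measurable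

lemma measurable_p2 (U1 U : ℝ) : Measurable (b.p2 U1 U) := by
  have h1 := b.mfi
  have h2 := b.mg.comp b.mfi
  have hw : Measurable (w s : E → ℝ) := measurable_norm.pow_const _
  have hp : Measurable (p1 lam U1 : E → ℝ) := by unfold p1; fun_prop
  exact ((((hw.comp (h1.sub measurable_id)).add (hw.comp (h1.sub h2))).add
    (hw.comp (measurable_id.sub h2))).sub (hp.comp h1)).sub ((b.measurable_p3 U).comp h2)

omit [FiniteDimensional ℝ E] [BorelSpace E] in
lemma p2_f (U1 U : ℝ) {X : E} (hX : X ∈ ball (0 : E) b.r) :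
    b.p2 U1 U (b.f X) = cst s X (b.f X) (b.g X) - p1 lam U1 X - b.p3 U (b.g X) := by
  unfold p2; rw [b.fif X hX]

omit [FiniteDimensional ℝ E] [BorelSpace E] in
lemma small (he : ‖e‖ = 1) {U1 U η δ : ℝ} (hU : U1 + 2 * U = 2 + (2 : ℝ) ^ (-s)) (hη : 0 < η)
    (hδ : 0 < δ) : ∀ᶠ X in 𝓝 (0 : E), X ∈ ball (0 : E) b.r ∧ b.f X ∈ ball e δ ∧
      b.g X ∈ ball (-e) δ ∧ |b.p2 U1 U (b.f X) - U| ≤ η ∧ |b.p3 U (b.g X) - U| ≤ η := by
  have he0 : e ≠ 0 := by rintro rfl; simp at he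
  have he3 : e + e ≠ 0 := by
    rw [← two_smul ℝ e]; exact smul_ne_zero two_ne_zero he0
  have a0 : ∀ᶠ X in 𝓝 (0 : E), X ∈ ball (0 : E) b.r := ball_mem_nhds _ b.r_pos
  have a1 : ∀ᶠ X in 𝓝 (0 : E), b.f X ∈ ball e δ :=
    b.cf.eventually (by rw [b.f0]; exact ball_mem_nhds _ hδ)
  have a2 : ∀ᶠ X in 𝓝 (0 : E), b.g X ∈ ball (-e) δ :=
    b.cg.eventually (by rw [b.g0]; exact ball_mem_nhds _ hδ)
  have c3 : ContinuousAt (fun X => b.p3 U (b.g X)) 0 :=
    continuousAt_const.add (b.cv.continuousAt.comp b.cg)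
  have v3 : b.p3 U (b.g 0) = U := by rw [b.g0, p3, b.v0, add_zero]
  have w1 : ContinuousAt (fun X => w s (X - b.f X)) 0 :=
    ContinuousAt.comp (g := w s) (continuousAt_w s (by simpa [b.f0] using he0))
      (continuousAt_id.sub b.cf)
  have w2 : ContinuousAt (fun X => w s (X - b.g X)) 0 :=
    ContinuousAt.comp (g := w s) (continuousAt_w s (by simpa [b.g0] using he0))
      (continuousAt_id.sub b.cg)
  have w3 : ContinuousAt (fun X => w s (b.f X - b.g X)) 0 :=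
    ContinuousAt.comp (g := w s) (continuousAt_w s (by simpa [b.f0, b.g0] using he3))
      (b.cf.sub b.cg)
  have c1 : ContinuousAt (p1 lam U1 : E → ℝ) 0 := by unfold p1; fun_prop
  have c2 : ContinuousAt (fun X => cst s X (b.f X) (b.g X) - p1 lam U1 X - b.p3 U (b.g X)) 0 :=
    (((w1.add w2).add w3).sub c1).sub c3
  have v2 : cst s 0 (b.f 0) (b.g 0) - p1 lam U1 (0 : E) - b.p3 U (b.g 0) = U := by
    have n2 : ‖e + e‖ = 2 := by rw [← two_smul ℝ e, norm_smul, he]; simp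
    rw [v3, b.f0, b.g0]
    simp only [cst, w, p1, zero_sub, norm_neg, neg_neg, sub_neg_eq_add, he, n2, Real.one_rpow,
      norm_zero, zero_add]
    linarith
  have a3 : ∀ᶠ X in 𝓝 (0 : E),
      cst s X (b.f X) (b.g X) - p1 lam U1 X - b.p3 U (b.g X) ∈ closedBall U η :=
    c2.eventually (by simp only [v2]; exact closedBall_mem_nhds _ hη)
  have a4 : ∀ᶠ X in 𝓝 (0 : E), b.p3 U (b.g X) ∈ closedBall U η :=
    c3.eventually (by simp only [v3]; exact closedBall_mem_nhds _ hη)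
  filter_upwards [a0, a1, a2, a3, a4] with X h0 h1 h2 h3 h4
  refine ⟨h0, h1, h2, ?_, ?_⟩
  · rw [b.p2_f U1 U h0]; exact h3
  · exact h4

omit [FiniteDimensional ℝ E] [BorelSpace E] in
lemma good (U1 U : ℝ) {X x z : E} (hX : X ∈ ball (0 : E) b.r) (hx : x ∈ ball (0 : E) b.r)
    (hz : z ∈ ball (-e) b.r) :
    p1 lam U1 x + b.p2 U1 U (b.f X) + b.p3 U z + ‖x - X‖ ^ 2 ≤ cst s x (b.f X) z := by
  have := b.ineq X hX x hx z hz
  rw [b.p2_f U1 U hX]
  simp only [p1, p3]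
  linarith

end Branch

lemma dist_bounds {F : Type*} [NormedAddCommGroup F] {a b x y : F} {δ : ℝ} (hx : x ∈ ball a δ)
    (hy : y ∈ ball b δ) : ‖a - b‖ - 2 * δ ≤ ‖x - y‖ ∧ ‖x - y‖ ≤ ‖a - b‖ + 2 * δ := by
  rw [mem_ball, dist_eq_norm] at hx hy
  constructor
  · have : a - b = (x - y) - (x - a) + (y - b) := by abel
    have h1 := norm_add_le ((x - y) - (x - a)) (y - b)
    have h2 := norm_sub_le (x - y) (x - a)
    rw [← this] at h1
    linarith
  · have : x - y = (a - b) + (x - a) - (y - b) := by abel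
    have h1 := norm_sub_le ((a - b) + (x - a)) (y - b)
    have h2 := norm_add_le (a - b) (x - a)
    rw [← this] at h1
    linarith

theorem exists_data (m : Measure E) [m.IsAddHaarMeasure] {s : ℝ} (hs : 0 < s) (e1 e2 : E)
    (h1 : ‖e1‖ = 1) (h2 : ‖e2‖ = 1) (h12 : ⟪e1, e2⟫ = 0) :
    ∃ δ' : ℝ, 0 < δ' ∧ ∀ φ : E → ℝ, ContDiff ℝ ∞ φ → (∀ x, 0 ≤ φ x) → HasCompactSupport φ →
      tsupport φ ⊆ ball 0 δ' →
      IsProbabilityMeasure (m.withDensity fun x => ENNReal.ofReal (φ x ^ 2)) →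
      ∃ D : Data E, D.ν = (m.withDensity fun x => ENNReal.ofReal (φ x ^ 2)) ∧
        D.c = tripleCost s ∧ ∃ Θ : E → ℝ, ContDiff ℝ ∞ Θ ∧ (∀ x, 0 ≤ Θ x) ∧ HasCompactSupport Θ ∧
          D.μ = m.withDensity fun x => ENNReal.ofReal (Θ x ^ 2) := by
  classical
  have he1 : e1 ≠ 0 := by rintro rfl; simp at h1
  have he2 : e2 ≠ 0 := by rintro rfl; simp at h2
  obtain ⟨l1, hl1⟩ := exists_branch m hs he1
  obtain ⟨l2, hl2⟩ := exists_branch m hs he2
  set lam := max 0 (max l1 l2) with hlam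
  have hlam0 : 0 ≤ lam := le_max_left _ _
  obtain ⟨b⟩ := hl1 lam ((le_max_left _ _).trans (le_max_right _ _))
  obtain ⟨b'⟩ := hl2 lam ((le_max_right _ _).trans (le_max_right _ _))
  clear_value lam
  obtain ⟨U, η, δ0, hη, hηU, hU, hδ0, hδ4, c1, c2, c3⟩ := exists_constants hs
  -- shrink δ
  set δ := min δ0 (min b.r b'.r) with hδdef
  have hδ : 0 < δ := lt_min hδ0 (lt_min b.r_pos b'.r_pos)
  have hδδ0 : δ ≤ δ0 := min_le_left _ _
  have hδb : δ ≤ b.r := (min_le_right _ _).trans (min_le_left _ _)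
  have hδb' : δ ≤ b'.r := (min_le_right _ _).trans (min_le_right _ _)
  clear_value δ
  set U1 := 2 + (2 : ℝ) ^ (-s) - 2 * U with hU1
  have h2s : (2 : ℝ) ^ (-s) ≤ 1 := Real.rpow_le_one_of_one_le_of_nonpos (by norm_num) (by linarith)
  have h2s0 : 0 < (2 : ℝ) ^ (-s) := by positivity
  have hUU : U1 + 2 * U = 2 + (2 : ℝ) ^ (-s) := by rw [hU1]; ring
  clear_value U1
  have ev0 : ∀ᶠ X in 𝓝 (0 : E), 0 ≤ p1 lam U1 X := by
    have c : ContinuousAt (p1 lam U1 : E → ℝ) 0 := by unfold p1; fun_prop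
    apply c.eventually (le_mem_nhds _)
    simp only [p1, norm_zero]
    linarith
  have ev1 : ∀ᶠ X in 𝓝 (0 : E), X ∈ ball (0 : E) δ := ball_mem_nhds (0 : E) hδ
  obtain ⟨δ', hδ', hsm⟩ := Metric.eventually_nhds_iff_ball.1
    (ev0.and (ev1.and ((b.small h1 hUU hη hδ).and (b'.small h2 hUU hη hδ))))
  refine ⟨δ', hδ', fun φ hφ hφ0 hφc hφs hprob => ?_⟩
  set B := ball (0 : E) δ' with hB
  have hBr : B ⊆ ball 0 b.r := fun x hx => (hsm x hx).2.2.1.1
  have hBr' : B ⊆ ball 0 b'.r := fun x hx => (hsm x hx).2.2.2.1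
  -- geometry of centres
  have hsq : Real.sqrt 2 ^ 2 = 2 := Real.sq_sqrt (by norm_num)
  have hsq1 : 1 ≤ Real.sqrt 2 := Real.one_le_sqrt.2 (by norm_num)
  have hsq2 : Real.sqrt 2 ≤ 2 := by nlinarith
  have nm : ‖e1 - e2‖ = Real.sqrt 2 := by
    rw [← Real.sqrt_sq (norm_nonneg (e1 - e2)), norm_sub_sq_real, h1, h2, h12]; norm_num
  have np : ‖e1 + e2‖ = Real.sqrt 2 := by
    rw [← Real.sqrt_sq (norm_nonneg (e1 + e2)), norm_add_sq_real, h1, h2, h12]; norm_num
  have n12 : ‖(0 : E) - e1‖ = 1 := by simp [h1]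
  have n13 : ‖(0 : E) - -e1‖ = 1 := by simp [h1]
  have n14 : ‖(0 : E) - e2‖ = 1 := by simp [h2]
  have n15 : ‖(0 : E) - -e2‖ = 1 := by simp [h2]
  have n23 : ‖e1 - -e1‖ = 2 := by rw [sub_neg_eq_add, ← two_smul ℝ e1, norm_smul, h1]; simp
  have n45 : ‖e2 - -e2‖ = 2 := by rw [sub_neg_eq_add, ← two_smul ℝ e2, norm_smul, h2]; simp
  have n24 : ‖e1 - e2‖ = Real.sqrt 2 := nm
  have n25 : ‖e1 - -e2‖ = Real.sqrt 2 := by rw [sub_neg_eq_add, np]
  have n34 : ‖-e1 - e2‖ = Real.sqrt 2 := by rw [← np, ← norm_neg]; congr 1; abel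
  have n35 : ‖-e1 - -e2‖ = Real.sqrt 2 := by rw [← nm, ← norm_neg]; congr 1; abel
  have far : ∀ {a c x y : E}, 1 ≤ ‖a - c‖ → x ∈ ball a δ → y ∈ ball c δ → 1 / 2 ≤ ‖x - y‖ :=
    fun h hx hy => by have := (dist_bounds hx hy).1; linarith
  have dis : ∀ {a c : E}, 1 ≤ ‖a - c‖ → ∀ x ∈ ball a δ, x ∉ ball c δ := fun h x hx hy => by
    have := far h hx hy
    simp at this
    linarith
  have ne' : ∀ {a c x y : E}, 1 ≤ ‖a - c‖ → x ∈ ball a δ → y ∈ ball c δ → x ≠ y :=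
    fun h hx hy hxy => dis h _ hx (hxy ▸ hy)
  have d12 := dis n12.ge
  have d13 := dis n13.ge
  have d14 := dis n14.ge
  have d15 := dis n15.ge
  have d23 := dis (a := e1) (c := -e1) (by linarith)
  have d24 := dis (a := e1) (c := e2) (by linarith)
  have d25 := dis (a := e1) (c := -e2) (by linarith)
  have d34 := dis (a := -e1) (c := e2) (by linarith)
  have d35 := dis (a := -e1) (c := -e2) (by linarith)
  have d45 := dis (a := e2) (c := -e2) (by linarith)
  have m1 : ∀ x ∈ B, x ∈ ball (0 : E) δ := fun x hx => (hsm x hx).2.1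
  have m2 : ∀ x ∈ B, b.f x ∈ ball e1 δ := fun x hx => (hsm x hx).2.2.1.2.1
  have m3 : ∀ x ∈ B, b.g x ∈ ball (-e1) δ := fun x hx => (hsm x hx).2.2.1.2.2.1
  have m4 : ∀ x ∈ B, b'.f x ∈ ball e2 δ := fun x hx => (hsm x hx).2.2.2.2.1
  have m5 : ∀ x ∈ B, b'.g x ∈ ball (-e2) δ := fun x hx => (hsm x hx).2.2.2.2.2.1
  -- the potential
  let u : E → ℝ := fun p => if p ∈ ball (0 : E) δ then p1 lam U1 p
    else if p ∈ ball e1 δ then b.p2 U1 U p else if p ∈ ball (-e1) δ then b.p3 U p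
    else if p ∈ ball e2 δ then b'.p2 U1 U p else b'.p3 U p
  have mu : Measurable u := by
    have hp : Measurable (p1 lam U1 : E → ℝ) := by unfold p1; fun_prop
    exact Measurable.ite measurableSet_ball hp (Measurable.ite measurableSet_ball
      (b.measurable_p2 U1 U) (Measurable.ite measurableSet_ball (b.measurable_p3 U)
        (Measurable.ite measurableSet_ball (b'.measurable_p2 U1 U) (b'.measurable_p3 U))))
  have u1 : ∀ p ∈ ball (0 : E) δ, u p = p1 lam U1 p := fun p hp => by simp only [u, hp, if_true]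
  have u2 : ∀ p ∈ ball e1 δ, u p = b.p2 U1 U p := fun p hp => by
    have : p ∉ ball (0 : E) δ := fun h => d12 _ h hp
    simp only [u, hp, this, if_true, if_false]
  have u3 : ∀ p ∈ ball (-e1) δ, u p = b.p3 U p := fun p hp => by
    have a1 : p ∉ ball (0 : E) δ := fun h => d13 _ h hp
    have a2 : p ∉ ball e1 δ := fun h => d23 _ h hp
    simp only [u, hp, a1, a2, if_true, if_false]
  have u4 : ∀ p ∈ ball e2 δ, u p = b'.p2 U1 U p := fun p hp => by
    have a1 : p ∉ ball (0 : E) δ := fun h => d14 _ h hp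
    have a2 : p ∉ ball e1 δ := fun h => d24 _ h hp
    have a3 : p ∉ ball (-e1) δ := fun h => d34 _ h hp
    simp only [u, hp, a1, a2, a3, if_true, if_false]
  have u5 : ∀ p ∈ ball (-e2) δ, u p = b'.p3 U p := fun p hp => by
    have a1 : p ∉ ball (0 : E) δ := fun h => d15 _ h hp
    have a2 : p ∉ ball e1 δ := fun h => d25 _ h hp
    have a3 : p ∉ ball (-e1) δ := fun h => d35 _ h hp
    have a4 : p ∉ ball e2 δ := fun h => d45 _ h hp
    simp only [u, a1, a2, a3, a4, if_false]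
  clear_value u
  have uB : ∀ x ∈ B, 0 ≤ u x ∧ u x ≤ U1 := fun x hx => by
    rw [u1 x (m1 x hx)]
    refine ⟨(hsm x hx).1, ?_⟩
    have : 0 ≤ lam / 2 * ‖x‖ ^ 2 := by positivity
    simp only [p1]; linarith
  set O : Set E := b.f '' B ∪ b.g '' B ∪ b'.f '' B ∪ b'.g '' B with hO
  have uO : ∀ y ∈ O, 0 ≤ u y ∧ u y ≤ U + η := by
    have key : ∀ t : ℝ, |t - U| ≤ η → 0 ≤ t ∧ t ≤ U + η := fun t ht => by
      have := abs_le.1 ht; constructor <;> linarith
    rintro y (((⟨x, hx, rfl⟩ | ⟨x, hx, rfl⟩) | ⟨x, hx, rfl⟩) | ⟨x, hx, rfl⟩)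
    · rw [u2 _ (m2 x hx)]; exact key _ (hsm x hx).2.2.1.2.2.2.1
    · rw [u3 _ (m3 x hx)]; exact key _ (hsm x hx).2.2.1.2.2.2.2
    · rw [u4 _ (m4 x hx)]; exact key _ (hsm x hx).2.2.2.2.2.2.1
    · rw [u5 _ (m5 x hx)]; exact key _ (hsm x hx).2.2.2.2.2.2.2
  have nO : ∀ y ∈ O, ∃ a : E, ‖a‖ = 1 ∧ y ∈ ball a δ := by
    rintro y (((⟨x, hx, rfl⟩ | ⟨x, hx, rfl⟩) | ⟨x, hx, rfl⟩) | ⟨x, hx, rfl⟩)
    · exact ⟨e1, h1, m2 x hx⟩
    · exact ⟨-e1, by simp [h1], m3 x hx⟩
    · exact ⟨e2, h2, m4 x hx⟩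
    · exact ⟨-e2, by simp [h2], m5 x hx⟩
  have hSO : ∀ x, x ∈ B ∪ b.f '' B ∪ b.g '' B ∪ b'.f '' B ∪ b'.g '' B ↔ x ∈ B ∨ x ∈ O := by
    intro x; simp only [hO, mem_union]; tauto
  let V : E → E → E → ℝ≥0∞ := fun x y z =>
    ENNReal.ofReal (u x) + ENNReal.ofReal (u y) + ENNReal.ofReal (u z)
  have Vcyc : ∀ x y z, V y z x = V x y z := fun x y z => by simp only [V]; ring
  have Vswap : ∀ x y z, V x z y = V x y z := fun x y z => by simp only [V]; ring
  have Vreal : ∀ x y z, 0 ≤ u x → 0 ≤ u y → 0 ≤ u z →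
      V x y z = ENNReal.ofReal (u x + u y + u z) := fun x y z a1 a2 a3 => by
    simp only [V]
    rw [ENNReal.ofReal_add (add_nonneg a1 a2) a3, ENNReal.ofReal_add a1 a2]
  have Vlt : ∀ x y z (t : ℝ), 0 ≤ u x → 0 ≤ u y → 0 ≤ u z → u x + u y + u z < t →
      V x y z < ENNReal.ofReal t := fun x y z t a1 a2 a3 a4 => by
    rw [Vreal x y z a1 a2 a3]
    exact (ENNReal.ofReal_lt_ofReal_iff (by linarith)).2 a4
  have S1 : ∀ x ∈ B, ∀ y ∈ B, ∀ z, z ∈ B ∨ z ∈ O → V x y z < tripleCost s (x, y, z) := by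
    intro x hx y hy z hz
    have hz' : 0 ≤ u z ∧ u z ≤ 3 := by
      rcases hz with hz | hz
      · exact ⟨(uB z hz).1, by linarith [(uB z hz).2]⟩
      · exact ⟨(uO z hz).1, by linarith [(uO z hz).2]⟩
    have a1 := uB x hx
    have a2 := uB y hy
    refine (Vlt x y z ((2 * δ0) ^ (-s)) a1.1 a2.1 hz'.1 (by linarith)).trans_le ?_
    have a3 : ‖x - y‖ ≤ 2 * δ0 := by
      have := (dist_bounds (m1 x hx) (m1 y hy)).2
      simp only [sub_self, norm_zero] at this
      linarith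
    refine (pairCost_ge hs (by positivity) a3).trans ?_
    unfold tripleCost
    exact le_self_add.trans le_self_add
  have S2 : ∀ x ∈ O, ∀ y ∈ O, ∀ z ∈ O, V x y z < tripleCost s (x, y, z) := by
    have key : ∀ x ∈ O, ∀ y ∈ O, ‖x - y‖ ≤ 3 := fun x hx y hy => by
      obtain ⟨a, ha, hxa⟩ := nO x hx
      obtain ⟨c, hc, hyc⟩ := nO y hy
      have := (dist_bounds hxa hyc).2
      have := norm_sub_le a c
      linarith
    intro x hx y hy z hz
    have a1 := uO x hx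
    have a2 := uO y hy
    have a3 := uO z hz
    refine (Vlt x y z _ a1.1 a2.1 a3.1 ?_).trans_le (tripleCost_ge hs (by norm_num) (by norm_num)
      (by norm_num) (key x hx y hy) (key x hx z hz) (key y hy z hz))
    linarith
  have S3 : ∀ x ∈ B, ∀ y ∈ O, ∀ z ∈ O, ∀ a c : E, y ∈ ball a δ → z ∈ ball c δ →
      ‖a - c‖ ≤ Real.sqrt 2 → V x y z < tripleCost s (x, y, z) := by
    have key : ∀ x ∈ B, ∀ y ∈ O, ‖x - y‖ ≤ 1 + 2 * δ0 := fun x hx y hy => by
      obtain ⟨c, hc, hyc⟩ := nO y hy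
      have := (dist_bounds (m1 x hx) hyc).2
      simp only [zero_sub, norm_neg, hc] at this
      linarith
    intro x hx y hy z hz a c hya hzc hac
    have a1 := uB x hx
    have a2 := uO y hy
    have a3 := uO z hz
    have a4 : ‖y - z‖ ≤ Real.sqrt 2 + 2 * δ0 := by
      have := (dist_bounds hya hzc).2
      linarith
    refine (Vlt x y z _ a1.1 a2.1 a3.1 ?_).trans_le (tripleCost_ge hs (by positivity)
      (by positivity) (by positivity) (key x hx y hy) (key x hx z hz) a4)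
    linarith
  have i2 : ∀ x ∈ B, b.f x ∈ O := fun x hx => Or.inl (Or.inl (Or.inl ⟨x, hx, rfl⟩))
  have i3 : ∀ x ∈ B, b.g x ∈ O := fun x hx => Or.inl (Or.inl (Or.inr ⟨x, hx, rfl⟩))
  have i4 : ∀ x ∈ B, b'.f x ∈ O := fun x hx => Or.inl (Or.inr ⟨x, hx, rfl⟩)
  have i5 : ∀ x ∈ B, b'.g x ∈ O := fun x hx => Or.inr ⟨x, hx, rfl⟩
  have S4 : ∀ x ∈ B, ∀ X ∈ B, ∀ X' ∈ B, V x (b.f X) (b.g X') ≤ tripleCost s (x, b.f X, b.g X') ∧
      (V x (b.f X) (b.g X') = tripleCost s (x, b.f X, b.g X') → X = x) := by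
    intro x hx X hX X' hX'
    have g := b.good U1 U (hBr hX) (hBr hx) (ball_subset_ball hδb (m3 X' hX'))
    rw [← u1 x (m1 x hx), ← u2 _ (m2 X hX), ← u3 _ (m3 X' hX')] at g
    have a1 := (uB x hx).1
    have a2 := (uO _ (i2 X hX)).1
    have a3 := (uO _ (i3 X' hX')).1
    have a4 := sq_nonneg ‖x - X‖
    rw [Vreal _ _ _ a1 a2 a3, tripleCost_eq s (ne' n12.ge (m1 x hx) (m2 X hX))
      (ne' n13.ge (m1 x hx) (m3 X' hX')) (ne' (by linarith) (m2 X hX) (m3 X' hX'))]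
    refine ⟨ENNReal.ofReal_le_ofReal (by linarith), fun h => ?_⟩
    rw [ENNReal.ofReal_eq_ofReal_iff (by linarith) (by linarith)] at h
    have : ‖x - X‖ ^ 2 = 0 := by linarith
    exact (sub_eq_zero.1 (norm_eq_zero.1 (pow_eq_zero_iff two_ne_zero |>.1 this))).symm
  have S5 : ∀ x ∈ B, ∀ X ∈ B, ∀ X' ∈ B,
      V x (b'.f X) (b'.g X') ≤ tripleCost s (x, b'.f X, b'.g X') := by
    intro x hx X hX X' hX'
    have g := b'.good U1 U (hBr' hX) (hBr' hx) (ball_subset_ball hδb' (m5 X' hX'))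
    rw [← u1 x (m1 x hx), ← u4 _ (m4 X hX), ← u5 _ (m5 X' hX')] at g
    have a1 := (uB x hx).1
    have a2 := (uO _ (i4 X hX)).1
    have a3 := (uO _ (i5 X' hX')).1
    have a4 := sq_nonneg ‖x - X‖
    rw [Vreal _ _ _ a1 a2 a3, tripleCost_eq s (ne' n14.ge (m1 x hx) (m4 X hX))
      (ne' n15.ge (m1 x hx) (m5 X' hX')) (ne' (by linarith) (m4 X hX) (m5 X' hX'))]
    exact ENNReal.ofReal_le_ofReal (by linarith)
  have r0 : ∀ a : E, ‖a - a‖ ≤ Real.sqrt 2 := fun a => by simp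
  have rs : ∀ {a c : E}, ‖a - c‖ = Real.sqrt 2 → ‖c - a‖ ≤ Real.sqrt 2 := fun h => by
    rw [norm_sub_rev, h]
  have S6 : ∀ x ∈ B, ∀ y ∈ O, ∀ z ∈ O, V x y z ≤ tripleCost s (x, y, z) := by
    intro x hx y hy z hz
    have T := S3 x hx y hy z hz
    rcases hy with (((⟨X, hX, rfl⟩ | ⟨X, hX, rfl⟩) | ⟨X, hX, rfl⟩) | ⟨X, hX, rfl⟩) <;>
    rcases hz with (((⟨X', hX', rfl⟩ | ⟨X', hX', rfl⟩) | ⟨X', hX', rfl⟩) | ⟨X', hX', rfl⟩)
    · exact (T _ _ (m2 X hX) (m2 X' hX') (r0 _)).le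
    · exact (S4 x hx X hX X' hX').1
    · exact (T _ _ (m2 X hX) (m4 X' hX') n24.le).le
    · exact (T _ _ (m2 X hX) (m5 X' hX') n25.le).le
    · rw [Vswap, tripleCost_swap]; exact (S4 x hx X' hX' X hX).1
    · exact (T _ _ (m3 X hX) (m3 X' hX') (r0 _)).le
    · exact (T _ _ (m3 X hX) (m4 X' hX') n34.le).le
    · exact (T _ _ (m3 X hX) (m5 X' hX') n35.le).le
    · exact (T _ _ (m4 X hX) (m2 X' hX') (rs n24)).le
    · exact (T _ _ (m4 X hX) (m3 X' hX') (rs n34)).le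
    · exact (T _ _ (m4 X hX) (m4 X' hX') (r0 _)).le
    · exact S5 x hx X hX X' hX'
    · exact (T _ _ (m5 X hX) (m2 X' hX') (rs n25)).le
    · exact (T _ _ (m5 X hX) (m3 X' hX') (rs n35)).le
    · rw [Vswap, tripleCost_swap]; exact S5 x hx X' hX' X hX
    · exact (T _ _ (m5 X hX) (m5 X' hX') (r0 _)).le
  have S7 : ∀ x ∈ B, ∀ X ∈ B, ∀ z ∈ O, V x (b.f X) z = tripleCost s (x, b.f X, z) →
      X = x ∧ z ∈ ball (-e1) δ := by
    intro x hx X hX z hz heq
    have T := S3 x hx _ (i2 X hX) z hz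
    rcases hz with (((⟨X', hX', rfl⟩ | ⟨X', hX', rfl⟩) | ⟨X', hX', rfl⟩) | ⟨X', hX', rfl⟩)
    · exact absurd heq (T _ _ (m2 X hX) (m2 X' hX') (r0 _)).ne
    · exact ⟨(S4 x hx X hX X' hX').2 heq, m3 X' hX'⟩
    · exact absurd heq (T _ _ (m2 X hX) (m4 X' hX') n24.le).ne
    · exact absurd heq (T _ _ (m2 X hX) (m5 X' hX') n25.le).ne
  have bd : ∀ {x y z : E}, 1 / 2 ≤ ‖x - y‖ → 1 / 2 ≤ ‖x - z‖ → 1 / 2 ≤ ‖y - z‖ →
      tripleCost s (x, y, z) ≤ 3 * ENNReal.ofReal ((1 / 2 : ℝ) ^ (-s)) := fun a1 a2 a3 => by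
    unfold tripleCost
    refine (add_le_add (add_le_add (pairCost_le hs (by norm_num) a1)
      (pairCost_le hs (by norm_num) a2)) (pairCost_le hs (by norm_num) a3)).trans (le_of_eq ?_)
    ring
  have mimg : ∀ f g : E → E, Measurable f → (∀ x ∈ B, g (f x) = x) → MeasurableSet (f '' B) :=
    fun f g mf hg => measurableSet_ball.image_of_measurable_injOn mf
      (fun x hx y hy h => by rw [← hg x hx, ← hg y hy, h])
  let D : Data E :=
    { ν := m.withDensity fun x => ENNReal.ofReal (φ x ^ 2)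
      B := B
      f2 := b.f
      f3 := b.g
      f4 := b'.f
      f5 := b'.g
      g2 := b.fi
      g3 := b.gi
      g4 := b'.fi
      g5 := b'.gi
      A1 := ball 0 δ
      A2 := ball e1 δ
      A3 := ball (-e1) δ
      A4 := ball e2 δ
      A5 := ball (-e2) δ
      c := tripleCost s
      u := fun x => ENNReal.ofReal (u x)
      prob := hprob
      mB := measurableSet_ball
      aeB := by
        have q1 : Measurable fun x => ENNReal.ofReal (φ x ^ 2) :=
          (hφ.continuous.pow 2).measurable.ennreal_ofReal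
        rw [ae_withDensity_iff q1]
        refine ae_of_all _ fun x hx => hφs (subset_tsupport _ fun h0 => hx ?_)
        simp [h0]
      mf2 := b.mf
      mf3 := b.mg
      mf4 := b'.mf
      mf5 := b'.mg
      mg2 := b.mfi
      mg3 := b.mgi
      mg4 := b'.mfi
      mg5 := b'.mgi
      mI2 := mimg _ _ b.mf fun x hx => b.fif x (hBr hx)
      mI3 := mimg _ _ b.mg fun x hx => b.gig x (hBr hx)
      mI4 := mimg _ _ b'.mf fun x hx => b'.fif x (hBr' hx)
      mI5 := mimg _ _ b'.mg fun x hx => b'.gig x (hBr' hx)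
      gf2 := fun x hx => b.fif x (hBr hx)
      gf3 := fun x hx => b.gig x (hBr hx)
      gf4 := fun x hx => b'.fif x (hBr' hx)
      gf5 := fun x hx => b'.gig x (hBr' hx)
      mA1 := measurableSet_ball
      mA2 := measurableSet_ball
      mA3 := measurableSet_ball
      mA4 := measurableSet_ball
      mA5 := measurableSet_ball
      h1 := m1
      h2 := m2
      h3 := m3
      h4 := m4
      h5 := m5
      d12 := d12
      d13 := d13
      d14 := d14
      d15 := d15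
      d23 := d23
      d24 := d24
      d25 := d25
      d34 := d34
      d35 := d35
      d45 := d45
      mc := (continuous_tripleCost s).measurable
      mu := mu.ennreal_ofReal
      ccyc := tripleCost_cyc s
      cswap := tripleCost_swap s
      ineq := by
        intro x hx y hy z hz
        rw [hSO] at hx hy hz
        change V x y z ≤ _
        rcases hx with hx | hx <;> rcases hy with hy | hy
        · exact (S1 x hx y hy z hz).le
        · rcases hz with hz | hz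
          · rw [← Vswap, ← tripleCost_swap]; exact (S1 x hx z hz y (Or.inr hy)).le
          · exact S6 x hx y hy z hz
        · rcases hz with hz | hz
          · rw [← Vcyc, ← tripleCost_cyc]; exact (S1 y hy z hz x (Or.inr hx)).le
          · rw [← Vcyc, ← tripleCost_cyc]; exact S6 y hy z hz x hx
        · rcases hz with hz | hz
          · rw [Vcyc z x y, tripleCost_cyc s z x y]; exact S6 z hz x hx y hy
          · exact (S2 x hx y hy z hz).le
      eq23 := by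
        intro x hx
        change _ = V x (b.f x) (b.g x)
        rw [Vreal _ _ _ (uB x hx).1 (uO _ (i2 x hx)).1 (uO _ (i3 x hx)).1,
          tripleCost_eq s (ne' n12.ge (m1 x hx) (m2 x hx))
            (ne' n13.ge (m1 x hx) (m3 x hx)) (ne' (by linarith) (m2 x hx) (m3 x hx)),
          u1 x (m1 x hx), u2 _ (m2 x hx), u3 _ (m3 x hx), b.p2_f U1 U (hBr hx)]
        congr 1; ring
      eq45 := by
        intro x hx
        change _ = V x (b'.f x) (b'.g x)
        rw [Vreal _ _ _ (uB x hx).1 (uO _ (i4 x hx)).1 (uO _ (i5 x hx)).1,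
          tripleCost_eq s (ne' n14.ge (m1 x hx) (m4 x hx))
            (ne' n15.ge (m1 x hx) (m5 x hx)) (ne' (by linarith) (m4 x hx) (m5 x hx)),
          u1 x (m1 x hx), u4 _ (m4 x hx), u5 _ (m5 x hx), b'.p2_f U1 U (hBr' hx)]
        congr 1; ring
      rigid := by
        intro x hx y hy z hz heq hy2
        obtain ⟨X, hX, rfl⟩ : y ∈ b.f '' B := by
          rcases hy with ((((hy | hy) | ⟨X, hX, rfl⟩) | ⟨X, hX, rfl⟩) | ⟨X, hX, rfl⟩)
          · exact absurd hy2 (d12 _ (m1 y hy))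
          · exact hy
          · exact absurd (m3 X hX) (d23 _ hy2)
          · exact absurd (m4 X hX) (d24 _ hy2)
          · exact absurd (m5 X hX) (d25 _ hy2)
        rw [hSO] at hx hz
        change V x (b.f X) z = _ at heq
        rcases hx with hx | hx <;> rcases hz with hz | hz
        · rw [← Vswap, ← tripleCost_swap] at heq
          exact absurd heq (S1 x hx z hz _ (Or.inr (i2 X hX))).ne
        · obtain ⟨a1, a2⟩ := S7 x hx X hX z hz heq
          refine ⟨Or.inl ⟨m1 x hx, ?_⟩, fun h => d23 _ h a2⟩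
          rw [b.fif X (hBr hX), a1]
        · rw [Vcyc z x (b.f X), tripleCost_cyc s z x (b.f X), ← Vswap, ← tripleCost_swap] at heq
          obtain ⟨-, a2⟩ := S7 z hz X hX x hx heq
          exact ⟨Or.inr a2, d12 _ (m1 z hz)⟩
        · exact absurd heq (S2 x hx _ (i2 X hX) z hz).ne
      M := 3 * ENNReal.ofReal ((1 / 2 : ℝ) ^ (-s))
      M_ne := ENNReal.mul_ne_top (by simp) ENNReal.ofReal_ne_top
      bd23 := fun x hx x' hx' => bd (far n12.ge (m1 x' hx') (m2 x hx))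
        (far n13.ge (m1 x' hx') (m3 x hx)) (far (by linarith) (m2 x hx) (m3 x hx))
      bd45 := fun x hx x' hx' => bd (far n14.ge (m1 x' hx') (m4 x hx))
        (far n15.ge (m1 x' hx') (m5 x hx)) (far (by linarith) (m4 x hx) (m5 x hx)) }
  refine ⟨D, rfl, rfl, ?_⟩
  obtain ⟨ψ2, a2, b2, k2, s2, e2'⟩ := b.pf φ hφ hφ0 hφc (hφs.trans hBr)
  obtain ⟨ψ3, a3, b3, k3, s3, e3⟩ := b.pg φ hφ hφ0 hφc (hφs.trans hBr)
  obtain ⟨ψ4, a4, b4, k4, s4, e4⟩ := b'.pf φ hφ hφ0 hφc (hφs.trans hBr')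
  obtain ⟨ψ5, a5, b5, k5, s5, e5⟩ := b'.pg φ hφ hφ0 hφc (hφs.trans hBr')
  have t1 : ∀ x, φ x ≠ 0 → x ∈ ball (0 : E) δ := fun x hx => m1 x (hφs (subset_tsupport _ hx))
  have t2 : ∀ x, ψ2 x ≠ 0 → x ∈ ball e1 δ := fun x hx => by
    obtain ⟨y, hy, rfl⟩ := s2 hx; exact m2 y (hφs hy)
  have t3 : ∀ x, ψ3 x ≠ 0 → x ∈ ball (-e1) δ := fun x hx => by
    obtain ⟨y, hy, rfl⟩ := s3 hx; exact m3 y (hφs hy)
  have t4 : ∀ x, ψ4 x ≠ 0 → x ∈ ball e2 δ := fun x hx => by
    obtain ⟨y, hy, rfl⟩ := s4 hx; exact m4 y (hφs hy)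
  have t5 : ∀ x, ψ5 x ≠ 0 → x ∈ ball (-e2) δ := fun x hx => by
    obtain ⟨y, hy, rfl⟩ := s5 hx; exact m5 y (hφs hy)
  have cross : ∀ {f g : E → ℝ} {P Q : Set E}, (∀ x, f x ≠ 0 → x ∈ P) → (∀ x, g x ≠ 0 → x ∈ Q) →
      (∀ x ∈ P, x ∉ Q) → ∀ x, f x * g x = 0 := fun hf hg hd x => by
    by_contra hne
    exact hd x (hf x (left_ne_zero_of_mul hne)) (hg x (right_ne_zero_of_mul hne))
  have hsq6 : Real.sqrt (1 / 6) ^ 2 = 1 / 6 := Real.sq_sqrt (by norm_num)
  refine ⟨fun x => Real.sqrt (1 / 6) * (Real.sqrt 2 * φ x + ψ2 x + ψ3 x + ψ4 x + ψ5 x),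
    contDiff_const.mul (((((contDiff_const.mul hφ).add a2).add a3).add a4).add a5), fun x => ?_,
    ?_, ?_⟩
  · have := hφ0 x; have := b2 x; have := b3 x; have := b4 x; have := b5 x
    positivity
  · exact (((((hφc.mul_left (f := fun _ => Real.sqrt 2)).add k2).add k3).add k4).add k5).mul_left
      (f := fun _ => Real.sqrt (1 / 6))
  · change (6 : ℝ≥0∞)⁻¹ • (D.ν + D.ν + D.ν.map b.f + D.ν.map b.g + D.ν.map b'.f + D.ν.map b'.g) = _
    have hν : D.ν = m.withDensity fun x => ENNReal.ofReal (φ x ^ 2) := rfl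
    rw [hν, e2', e3, e4, e5]
    have q1 : Measurable fun x => ENNReal.ofReal (φ x ^ 2) :=
      (hφ.continuous.pow 2).measurable.ennreal_ofReal
    have q2 : Measurable fun x => ENNReal.ofReal (ψ2 x ^ 2) :=
      (a2.continuous.pow 2).measurable.ennreal_ofReal
    have q3 : Measurable fun x => ENNReal.ofReal (ψ3 x ^ 2) :=
      (a3.continuous.pow 2).measurable.ennreal_ofReal
    have q4 : Measurable fun x => ENNReal.ofReal (ψ4 x ^ 2) :=
      (a4.continuous.pow 2).measurable.ennreal_ofReal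
    have q5 : Measurable fun x => ENNReal.ofReal (ψ5 x ^ 2) :=
      (a5.continuous.pow 2).measurable.ennreal_ofReal
    rw [← withDensity_add_right _ q1, ← withDensity_add_right _ q2, ← withDensity_add_right _ q3,
      ← withDensity_add_right _ q4, ← withDensity_add_right _ q5,
      ← withDensity_smul' _ _ (by simp)]
    congr 1
    funext x
    simp only [Pi.smul_apply, Pi.add_apply, smul_eq_mul]
    have z12 := cross t1 t2 d12 x
    have z13 := cross t1 t3 d13 x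
    have z14 := cross t1 t4 d14 x
    have z15 := cross t1 t5 d15 x
    have z23 := cross t2 t3 d23 x
    have z24 := cross t2 t4 d24 x
    have z25 := cross t2 t5 d25 x
    have z34 := cross t3 t4 d34 x
    have z35 := cross t3 t5 d35 x
    have z45 := cross t4 t5 d45 x
    have key : (Real.sqrt (1 / 6) * (Real.sqrt 2 * φ x + ψ2 x + ψ3 x + ψ4 x + ψ5 x)) ^ 2
        = 6⁻¹ * (φ x ^ 2 + φ x ^ 2 + ψ2 x ^ 2 + ψ3 x ^ 2 + ψ4 x ^ 2 + ψ5 x ^ 2) := by
      rw [mul_pow, hsq6]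
      have : (Real.sqrt 2 * φ x + ψ2 x + ψ3 x + ψ4 x + ψ5 x) ^ 2
          = φ x ^ 2 + φ x ^ 2 + ψ2 x ^ 2 + ψ3 x ^ 2 + ψ4 x ^ 2 + ψ5 x ^ 2 := by
        linear_combination (φ x ^ 2) * hsq + 2 * Real.sqrt 2 * (z12 + z13 + z14 + z15)
          + 2 * (z23 + z24 + z25 + z34 + z35 + z45)
      rw [this]; norm_num
    rw [key, ENNReal.ofReal_mul (by norm_num), ENNReal.ofReal_inv_of_pos (by norm_num),
      ENNReal.ofReal_add (by positivity) (by positivity),
      ENNReal.ofReal_add (by positivity) (by positivity),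
      ENNReal.ofReal_add (by positivity) (by positivity),
      ENNReal.ofReal_add (by positivity) (by positivity),
      ENNReal.ofReal_add (by positivity) (by positivity)]
    simp

end Crest.Agent.R130
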