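import Mathlib

/-!
Fine splitting of a smooth product density into two halves (row 130).
-/

open Set Filter Topology Metric MeasureTheory
open scoped ContDiff ENNReal

namespace Crest.Agent.R130

/-- left half map -/
noncomputable def eL (t : ℝ) : ℝ := (⌊t⌋ : ℝ) + Int.fract t / 2
/-- right half map -/
noncomputable def eR (t : ℝ) : ℝ := (⌊t⌋ : ℝ) + (1 / 2 + Int.fract t / 2)
/-- local doubling map -/
noncomputable def dd (t : ℝ) : ℝ := (⌊t⌋ : ℝ) + Int.fract (2 * t)

lemma measurable_floor_real : Measurable (fun t : ℝ => (⌊t⌋ : ℝ)) :=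
  (measurable_of_countable (fun k : ℤ => (k : ℝ))).comp Int.measurable_floor

lemma measurable_eL : Measurable eL :=
  measurable_floor_real.add (measurable_fract.div_const 2)

lemma measurable_eR : Measurable eR :=
  measurable_floor_real.add (measurable_const.add (measurable_fract.div_const 2))

lemma measurable_dd : Measurable dd :=
  measurable_floor_real.add (measurable_fract.comp (measurable_const.mul measurable_id))

lemma floor_eL (t : ℝ) : ⌊eL t⌋ = ⌊t⌋ := by
  have h1 := Int.fract_nonneg t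
  have h2 := Int.fract_lt_one t
  rw [Int.floor_eq_iff]; unfold eL; constructor <;> linarith

lemma floor_eR (t : ℝ) : ⌊eR t⌋ = ⌊t⌋ := by
  have h1 := Int.fract_nonneg t
  have h2 := Int.fract_lt_one t
  rw [Int.floor_eq_iff]; unfold eR; constructor <;> linarith

lemma fract_eL (t : ℝ) : Int.fract (eL t) < 1 / 2 := by
  have h2 := Int.fract_lt_one t
  rw [Int.fract, floor_eL]; unfold eL; linarith

lemma fract_eR (t : ℝ) : ¬ Int.fract (eR t) < 1 / 2 := by
  have h1 := Int.fract_nonneg t
  rw [Int.fract, floor_eR]; unfold eR; linarith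

lemma dd_eL (t : ℝ) : dd (eL t) = t := by
  unfold dd
  rw [floor_eL]
  have : 2 * eL t = Int.fract t + ((2 * ⌊t⌋ : ℤ) : ℝ) := by unfold eL; push_cast; ring
  rw [this, Int.fract_add_intCast, Int.fract_fract, Int.floor_add_fract]

lemma dd_eR (t : ℝ) : dd (eR t) = t := by
  unfold dd
  rw [floor_eR]
  have : 2 * eR t = Int.fract t + ((2 * ⌊t⌋ + 1 : ℤ) : ℝ) := by unfold eR; push_cast; ring
  rw [this, Int.fract_add_intCast, Int.fract_fract, Int.floor_add_fract]

lemma abs_eL_sub (t : ℝ) : |eL t - t| ≤ 1 := by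
  have h1 := Int.fract_nonneg t
  have h2 := Int.fract_lt_one t
  have h3 := Int.floor_add_fract t
  rw [abs_le]; unfold eL; constructor <;> linarith

lemma abs_eR_sub (t : ℝ) : |eR t - t| ≤ 1 := by
  have h1 := Int.fract_nonneg t
  have h2 := Int.fract_lt_one t
  have h3 := Int.floor_add_fract t
  rw [abs_le]; unfold eR; constructor <;> linarith

lemma map_half (c : ℝ) : (volume : Measure ℝ).map (fun t => t / 2 + c) = (2 : ℝ≥0∞) • volume := by
  have h1 : (fun t : ℝ => t / 2 + c) = (fun t => t + c) ∘ (fun t => t * (1 / 2)) := by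
    funext t; simp only [Function.comp]; ring
  rw [h1, ← Measure.map_map (by fun_prop) (by fun_prop), Real.map_volume_mul_right (by norm_num),
    Measure.map_smul, map_add_right_eq_self]
  congr 1
  norm_num

lemma restrict_map_cell (e : ℝ → ℝ) (me : Measurable e) (hfl : ∀ t, ⌊e t⌋ = ⌊t⌋) (k : ℤ) (c : ℝ)
    (he : ∀ t, ⌊t⌋ = k → e t = t / 2 + c) :
    ((volume : Measure ℝ).map e).restrict (Ico (k : ℝ) (k + 1))
      = (2 : ℝ≥0∞) • volume.restrict (Ico ((k : ℝ) / 2 + c) ((k + 1) / 2 + c)) := by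
  have hpre : e ⁻¹' Ico (k : ℝ) (k + 1) = Ico (k : ℝ) (k + 1) := by
    ext t
    simp only [mem_preimage, mem_Ico, ← Int.floor_eq_iff, hfl]
  have ma : Measurable (fun t : ℝ => t / 2 + c) := by fun_prop
  rw [Measure.restrict_map me measurableSet_Ico, hpre,
    Measure.map_congr (g := fun t => t / 2 + c), ← Measure.restrict_smul, ← map_half c,
    Measure.restrict_map ma measurableSet_Ico]
  · congr 2
    ext t
    simp only [mem_preimage, mem_Ico]
    constructor <;> rintro ⟨h1, h2⟩ <;> constructor <;> linarith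
  · filter_upwards [ae_restrict_mem measurableSet_Ico] with t ht
    exact he t (Int.floor_eq_iff.2 ht)

lemma volume_split : (volume : Measure ℝ) + volume = volume.map eL + volume.map eR := by
  apply Measure.ext_of_iUnion_eq_univ (iUnion_Ico_intCast ℝ)
  intro k
  rw [Measure.restrict_add, Measure.restrict_add,
    restrict_map_cell eL measurable_eL floor_eL k (k / 2),
    restrict_map_cell eR measurable_eR floor_eR k (k / 2 + 1 / 2), ← smul_add, ← two_smul ℝ≥0∞]
  · congr 1
    have e1 : (k : ℝ) / 2 + k / 2 = k := by ring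
    have e2 : ((k : ℝ) + 1) / 2 + k / 2 = k + 1 / 2 := by ring
    have e3 : (k : ℝ) / 2 + (k / 2 + 1 / 2) = k + 1 / 2 := by ring
    have e4 : ((k : ℝ) + 1) / 2 + (k / 2 + 1 / 2) = k + 1 := by ring
    rw [e1, e2, e3, e4, ← Measure.restrict_union _ measurableSet_Ico,
      Ico_union_Ico_eq_Ico (by linarith) (by linarith)]
    exact Ico_disjoint_Ico_same
  · intro t ht
    unfold eR; rw [Int.fract, ht]; ring
  · intro t ht
    unfold eL; rw [Int.fract, ht]; ring

lemma volume_split_restrict (N : ℕ) :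
    (volume : Measure ℝ).restrict (Ico 0 (N : ℝ)) + volume.restrict (Ico 0 (N : ℝ))
      = (volume.restrict (Ico 0 (N : ℝ))).map eL + (volume.restrict (Ico 0 (N : ℝ))).map eR := by
  have key : ∀ t : ℝ, t ∈ Ico 0 (N : ℝ) ↔ (0 ≤ ⌊t⌋ ∧ ⌊t⌋ < (N : ℤ)) := by
    intro t
    rw [mem_Ico, Int.floor_nonneg, Int.floor_lt]; simp
  have p1 : eL ⁻¹' Ico 0 (N : ℝ) = Ico 0 (N : ℝ) := by
    ext t; simp only [mem_preimage, key, floor_eL]
  have p2 : eR ⁻¹' Ico 0 (N : ℝ) = Ico 0 (N : ℝ) := by
    ext t; simp only [mem_preimage, key, floor_eR]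
  rw [← Measure.restrict_add, volume_split, Measure.restrict_add,
    Measure.restrict_map measurable_eL measurableSet_Ico,
    Measure.restrict_map measurable_eR measurableSet_Ico, p1, p2]

/-- normalised smooth bump -/
lemma exists_bump {Y : Type*} [NormedAddCommGroup Y] [NormedSpace ℝ Y] [FiniteDimensional ℝ Y]
    [MeasurableSpace Y] [BorelSpace Y] (m : Measure Y) [m.IsAddHaarMeasure] {η : ℝ} (hη : 0 < η) :
    ∃ b : Y → ℝ, ContDiff ℝ ∞ b ∧ (∀ x, 0 ≤ b x) ∧ Function.support b = ball 0 η ∧
      Integrable (fun x => b x ^ 2) m ∧ ∫ x, b x ^ 2 ∂m = 1 := by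
  let b0 : ContDiffBump (0 : Y) := ⟨η / 2, η, by positivity, by linarith⟩
  have hs : Function.support (fun x => b0 x ^ 2) = ball 0 η := by
    rw [← b0.support_eq]; ext x; simp
  have hc : HasCompactSupport (fun x => b0 x ^ 2) :=
    b0.hasCompactSupport.comp_left (g := fun t : ℝ => t ^ 2) (by simp)
  have hi : Integrable (fun x => b0 x ^ 2) m :=
    (b0.continuous.pow 2).integrable_of_hasCompactSupport hc
  have hI : 0 < ∫ x, b0 x ^ 2 ∂m := by
    rw [integral_pos_iff_support_of_nonneg (fun x => sq_nonneg _) hi, hs]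
    exact measure_ball_pos m _ hη
  set I := ∫ x, b0 x ^ 2 ∂m with hIdef
  have hsq : 0 < Real.sqrt I := Real.sqrt_pos.2 hI
  have e : (fun x => (b0 x / Real.sqrt I) ^ 2) = fun x => b0 x ^ 2 / I := by
    funext x; rw [div_pow, Real.sq_sqrt hI.le]
  refine ⟨fun x => b0 x / Real.sqrt I, b0.contDiff.div_const _,
    fun x => div_nonneg b0.nonneg hsq.le, ?_, ?_, ?_⟩
  · rw [← b0.support_eq]
    ext x
    simp [hsq.ne']
  · rw [e]; exact hi.div_const _
  · rw [e, integral_div, div_self hI.ne']

lemma prob_of_sq {Y : Type*} [MeasurableSpace Y] (m : Measure Y) (b : Y → ℝ)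
    (hi : Integrable (fun x => b x ^ 2) m) (h1 : ∫ x, b x ^ 2 ∂m = 1) :
    IsProbabilityMeasure (m.withDensity fun x => ENNReal.ofReal (b x ^ 2)) := by
  constructor
  rw [withDensity_apply _ MeasurableSet.univ, Measure.restrict_univ,
    ← ofReal_integral_eq_lintegral_ofReal hi (ae_of_all _ fun x => sq_nonneg _), h1,
    ENNReal.ofReal_one]

/-- a global order isomorphism which is the distribution function on the support -/
lemma exists_cdf {η : ℝ} (hη : 0 < η) (b : ℝ → ℝ) (hb : Continuous b)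
    (hs : Function.support b = ball 0 η) (h1 : ∫ x, b x ^ 2 = 1) :
    ∃ H : ℝ ≃o ℝ, (volume.withDensity fun x => ENNReal.ofReal (b x ^ 2)).map H
      = volume.restrict (Ico 0 1) := by
  have hs' : Function.support b = Ioo (-η) η := by rw [hs, Real.ball_eq_Ioo]; simp
  have hb2 : Continuous fun x => b x ^ 2 := hb.pow 2
  let F : ℝ → ℝ := fun t => ∫ x in (-η)..t, b x ^ 2
  have hFd : ∀ t, HasDerivAt F (b t ^ 2) t := fun t =>
    (hb2.integral_hasStrictDerivAt (-η) t).hasDerivAt
  have hFc : Continuous F := continuous_iff_continuousAt.2 fun t => (hFd t).continuousAt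
  have hFsub : ∀ x y, F y - F x = ∫ t in x..y, b t ^ 2 := fun x y =>
    intervalIntegral.integral_interval_sub_left (hb2.intervalIntegrable _ _)
      (hb2.intervalIntegrable _ _)
  have hFmono : ∀ x y, x ≤ y → F x ≤ F y := fun x y hxy => by
    have := intervalIntegral.integral_nonneg (μ := volume) (f := fun t => b t ^ 2) hxy
      (fun t _ => sq_nonneg _)
    linarith [hFsub x y]
  have hF0 : F (-η) = 0 := intervalIntegral.integral_same
  have hF1 : F η = 1 := by
    rw [← h1]
    apply intervalIntegral.integral_eq_integral_of_support_subset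
    intro x hx
    have : x ∈ Function.support b := by simpa using hx
    rw [hs'] at this
    exact Ioo_subset_Ioc_self this
  let H0 : ℝ → ℝ := fun t => F t + min (t + η) 0 + max (t - η) 0
  have hH0c : Continuous H0 := by fun_prop
  have hH0m : StrictMono H0 := by
    intro x y hxy
    have a1 := hFmono x y hxy.le
    have a2 : min (x + η) 0 ≤ min (y + η) 0 := min_le_min (by linarith) le_rfl
    have a3 : max (x - η) 0 ≤ max (y - η) 0 := max_le_max (by linarith) le_rfl
    simp only [H0]
    by_cases hx : x < -η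
    · have : min (x + η) 0 < min (y + η) 0 := by
        rw [min_eq_left (by linarith : x + η ≤ 0)]
        exact lt_min (by linarith) (by linarith)
      linarith
    · by_cases hy : η < y
      · have : max (x - η) 0 < max (y - η) 0 := by
          rw [max_eq_left (by linarith : 0 ≤ y - η)]
          exact max_lt (by linarith) (by linarith)
        linarith
      · push Not at hx hy
        have : 0 < ∫ t in x..y, b t ^ 2 := by
          apply intervalIntegral.intervalIntegral_pos_of_pos_on (hb2.intervalIntegrable _ _) _ hxy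
          intro t ht
          have : t ∈ Function.support b := by
            rw [hs']; exact ⟨by linarith [ht.1], by linarith [ht.2]⟩
          exact sq_pos_of_ne_zero this
        linarith [hFsub x y]
  have hH0s : Function.Surjective H0 := by
    apply hH0c.surjective
    · apply tendsto_atTop_mono' atTop (f₁ := fun t => t - η)
      · filter_upwards [eventually_ge_atTop η] with t ht
        have a1 := hFmono (-η) t (by linarith)
        simp only [H0]
        rw [min_eq_right (by linarith), max_eq_left (by linarith)]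
        linarith
      · exact tendsto_atTop_add_const_right _ _ tendsto_id
    · apply tendsto_atBot_mono' atBot (f₁ := fun t => t + η)
      · filter_upwards [eventually_le_atBot (-η)] with t ht
        have a1 := hFmono t (-η) ht
        simp only [H0]
        rw [min_eq_left (by linarith), max_eq_right (by linarith)]
        linarith
      · exact tendsto_atBot_add_const_right _ _ tendsto_id
  let H : ℝ ≃o ℝ := hH0m.orderIsoOfSurjective H0 hH0s
  have hH : ∀ t, H t = H0 t := fun t => rfl
  have hHF : ∀ t ∈ Icc (-η) η, H t = F t := fun t ht => by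
    rw [hH]
    simp only [H0]
    rw [min_eq_right (by linarith [ht.1]), max_eq_right (by linarith [ht.2])]
    ring
  have mH : Measurable H := H.continuous.measurable
  refine ⟨H, ?_⟩
  rw [← Measure.restrict_congr_set Ioo_ae_eq_Ico]
  have him : H '' Ioo (-η) η = Ioo 0 1 := by
    rw [H.image_Ioo, hHF _ ⟨le_rfl, by linarith⟩, hHF _ ⟨by linarith, le_rfl⟩, hF0, hF1]
  ext t ht
  have cv := lintegral_image_eq_lintegral_abs_deriv_mul (s := Ioo (-η) η) (f := H)
    (f' := fun x => b x ^ 2) measurableSet_Ioo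
    (fun x hx => (hFd x).hasDerivWithinAt.congr (fun y hy => hHF y (Ioo_subset_Icc_self hy))
      (hHF x (Ioo_subset_Icc_self hx))) H.injective.injOn (t.indicator 1)
  rw [him, lintegral_indicator_one ht] at cv
  rw [cv, Measure.map_apply mH ht, withDensity_apply _ (mH ht), ← lintegral_indicator (mH ht),
    ← lintegral_indicator measurableSet_Ioo]
  congr 1
  funext x
  by_cases hx : x ∈ Ioo (-η) η
  · rw [indicator_of_mem hx, abs_of_nonneg (sq_nonneg _)]
    by_cases hxt : H x ∈ t
    · rw [indicator_of_mem (show x ∈ H ⁻¹' t from hxt), indicator_of_mem hxt]; simp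
    · rw [indicator_of_notMem (show x ∉ H ⁻¹' t from hxt), indicator_of_notMem hxt]; simp
  · have : b x = 0 := by
      by_contra hne
      exact hx (hs' ▸ hne)
    rw [indicator_of_notMem hx]
    simp [indicator, this]

/-- one-dimensional fine splitting -/
lemma exists_split_one (ν : Measure ℝ) (H : ℝ ≃o ℝ) (hH : ν.map H = volume.restrict (Ico 0 1)) :
    ∃ (EL ER Dm : ℕ → ℝ → ℝ) (L : ℕ → Set ℝ), (∀ n, Measurable (EL n)) ∧ (∀ n, Measurable (ER n)) ∧
      (∀ n, Measurable (Dm n)) ∧ (∀ n, MeasurableSet (L n)) ∧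
      (∀ n, ν + ν = ν.map (EL n) + ν.map (ER n)) ∧
      (∀ n x, Dm n (EL n x) = x ∧ Dm n (ER n x) = x ∧ EL n x ∈ L n ∧ ER n x ∉ L n) ∧
      (∀ x, Tendsto (fun n => EL n x) atTop (𝓝 x) ∧ Tendsto (fun n => ER n x) atTop (𝓝 x)) := by
  have mH : Measurable H := H.continuous.measurable
  have mQ : Measurable H.symm := H.symm.continuous.measurable
  let P : ℕ → ℝ → ℝ := fun n x => ((n + 1 : ℕ) : ℝ) * H x
  let Q : ℕ → ℝ → ℝ := fun n t => H.symm (t / ((n + 1 : ℕ) : ℝ))
  have hN : ∀ n : ℕ, (0 : ℝ) < ((n + 1 : ℕ) : ℝ) := fun n => by positivity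
  have mP : ∀ n, Measurable (P n) := fun n => measurable_const.mul mH
  have mQ' : ∀ n, Measurable (Q n) := fun n => mQ.comp (measurable_id.div_const _)
  have PQ : ∀ n t, P n (Q n t) = t := fun n t => by
    simp only [P, Q, OrderIso.apply_symm_apply]
    field_simp
  have QP : ∀ n x, Q n (P n x) = x := fun n x => by
    simp only [P, Q]
    rw [mul_div_cancel_left₀ _ (hN n).ne', OrderIso.symm_apply_apply]
  refine ⟨fun n x => Q n (eL (P n x)), fun n x => Q n (eR (P n x)), fun n x => Q n (dd (P n x)),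
    fun n => P n ⁻¹' {t | Int.fract t < 1 / 2},
    fun n => (mQ' n).comp (measurable_eL.comp (mP n)),
    fun n => (mQ' n).comp (measurable_eR.comp (mP n)),
    fun n => (mQ' n).comp (measurable_dd.comp (mP n)),
    fun n => mP n (measurableSet_lt measurable_fract measurable_const), fun n => ?_,
    fun n x => ?_, fun x => ?_⟩
  · have hm : ν.map (P n) = ENNReal.ofReal |((n + 1 : ℕ) : ℝ)⁻¹| •
        volume.restrict (Ico 0 ((n + 1 : ℕ) : ℝ)) := by
      have mm : Measurable (fun t : ℝ => ((n + 1 : ℕ) : ℝ) * t) := measurable_const.mul measurable_id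
      have : P n = (fun t : ℝ => ((n + 1 : ℕ) : ℝ) * t) ∘ H := rfl
      rw [this, ← Measure.map_map mm mH, hH, ← Measure.restrict_smul,
        ← Real.map_volume_mul_left (hN n).ne', Measure.restrict_map mm measurableSet_Ico]
      congr 2
      ext t
      have := hN n
      simp only [mem_preimage, mem_Ico]
      constructor
      · rintro ⟨h1, h2⟩
        exact ⟨by positivity, by nlinarith⟩
      · rintro ⟨h1, h2⟩
        exact ⟨by nlinarith, by nlinarith⟩
    have hs : ν.map (P n) + ν.map (P n) = (ν.map (P n)).map eL + (ν.map (P n)).map eR := by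
      rw [hm, ← smul_add, volume_split_restrict, smul_add, Measure.map_smul, Measure.map_smul]
    have hb : (ν.map (P n)).map (Q n) = ν := by
      rw [Measure.map_map (mQ' n) (mP n)]
      have : Q n ∘ P n = id := funext (QP n)
      rw [this, Measure.map_id]
    have := congrArg (fun m => m.map (Q n)) hs
    simp only [Measure.map_add _ _ (mQ' n), hb] at this
    rw [this, Measure.map_map measurable_eL (mP n), Measure.map_map measurable_eR (mP n),
      Measure.map_map (mQ' n) (measurable_eL.comp (mP n)),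
      Measure.map_map (mQ' n) (measurable_eR.comp (mP n))]
    rfl
  · simp only [PQ, dd_eL, dd_eR, QP, mem_preimage, mem_ofPred_eq, fract_eL, fract_eR, true_and,
      not_false_eq_true]
  · have key : ∀ e : ℝ → ℝ, (∀ t, |e t - t| ≤ 1) →
        Tendsto (fun n => Q n (e (P n x))) atTop (𝓝 x) := by
      intro e he
      have h1 : Tendsto (fun n : ℕ => e (P n x) / ((n + 1 : ℕ) : ℝ)) atTop (𝓝 (H x)) := by
        rw [tendsto_iff_dist_tendsto_zero]
        apply squeeze_zero (fun _ => dist_nonneg) _ tendsto_one_div_add_atTop_nhds_zero_nat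
        intro n
        have h2 := he (P n x)
        have h3 := hN n
        rw [Real.dist_eq]
        have : e (P n x) / ((n + 1 : ℕ) : ℝ) - H x = (e (P n x) - P n x) / ((n + 1 : ℕ) : ℝ) := by
          simp only [P]; field_simp
        rw [this, abs_div, abs_of_pos h3]
        push_cast at h3 ⊢
        gcongr
      have h2 := (H.symm.continuous.tendsto (H x)).comp h1
      rw [OrderIso.symm_apply_apply] at h2
      exact h2
    exact ⟨key eL abs_eL_sub, key eR abs_eR_sub⟩

theorem exists_split {E Y : Type*} [NormedAddCommGroup E] [NormedSpace ℝ E]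
    [FiniteDimensional ℝ E] [MeasurableSpace E] [BorelSpace E]
    [NormedAddCommGroup Y] [NormedSpace ℝ Y] [FiniteDimensional ℝ Y]
    [MeasurableSpace Y] [BorelSpace Y] (m : Measure E) (mY : Measure Y) [mY.IsAddHaarMeasure]
    (Ψ : E ≃L[ℝ] ℝ × Y) (hΨ : MeasurePreserving Ψ m (volume.prod mY)) {δ : ℝ} (hδ : 0 < δ) :
    ∃ φ : E → ℝ, ContDiff ℝ ∞ φ ∧ (∀ x, 0 ≤ φ x) ∧ HasCompactSupport φ ∧ tsupport φ ⊆ ball 0 δ ∧
      IsProbabilityMeasure (m.withDensity fun x => ENNReal.ofReal (φ x ^ 2)) ∧
      ∃ (EL ER Dm : ℕ → E → E) (L : ℕ → Set E), (∀ n, Measurable (EL n)) ∧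
      (∀ n, Measurable (ER n)) ∧ (∀ n, Measurable (Dm n)) ∧ (∀ n, MeasurableSet (L n)) ∧
      (∀ n, (m.withDensity fun x => ENNReal.ofReal (φ x ^ 2))
          + (m.withDensity fun x => ENNReal.ofReal (φ x ^ 2))
        = (m.withDensity fun x => ENNReal.ofReal (φ x ^ 2)).map (EL n)
          + (m.withDensity fun x => ENNReal.ofReal (φ x ^ 2)).map (ER n)) ∧
      (∀ n x, Dm n (EL n x) = x ∧ Dm n (ER n x) = x ∧ EL n x ∈ L n ∧ ER n x ∉ L n) ∧
      (∀ x, Tendsto (fun n => EL n x) atTop (𝓝 x) ∧ Tendsto (fun n => ER n x) atTop (𝓝 x)) := by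
  have ev : ∀ᶠ p in 𝓝 (0 : ℝ × Y), Ψ.symm p ∈ ball (0 : E) (δ / 2) :=
    Ψ.symm.continuous.continuousAt.eventually (by
      rw [map_zero]; exact ball_mem_nhds _ (by positivity))
  obtain ⟨η, hη, hball⟩ := Metric.eventually_nhds_iff_ball.1 ev
  obtain ⟨b, hb, hb0, hbs, hbi, hb1⟩ := exists_bump (volume : Measure ℝ) hη
  obtain ⟨χ, hχ, hχ0, hχs, hχi, hχ1⟩ := exists_bump mY hη
  obtain ⟨H, hH⟩ := exists_cdf hη b hb.continuous hbs hb1
  set ν1 := volume.withDensity fun x => ENNReal.ofReal (b x ^ 2) with hν1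
  set ν2 := mY.withDensity fun x => ENNReal.ofReal (χ x ^ 2) with hν2
  have p1 : IsProbabilityMeasure ν1 := prob_of_sq _ b hbi hb1
  have p2 : IsProbabilityMeasure ν2 := prob_of_sq _ χ hχi hχ1
  obtain ⟨EL, ER, Dm, L, mEL, mER, mD, mL, hsp, hid, hlim⟩ := exists_split_one ν1 H hH
  let φ : E → ℝ := fun x => b (Ψ x).1 * χ (Ψ x).2
  have hφ : ContDiff ℝ ∞ φ :=
    (hb.comp (contDiff_fst.comp Ψ.contDiff)).mul (hχ.comp (contDiff_snd.comp Ψ.contDiff))
  have hsupp : Function.support φ ⊆ closedBall 0 (δ / 2) := by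
    intro x hx
    have h1 : (Ψ x).1 ∈ ball 0 η := hbs ▸ left_ne_zero_of_mul hx
    have h2 : (Ψ x).2 ∈ ball 0 η := hχs ▸ right_ne_zero_of_mul hx
    have h3 : Ψ x ∈ ball (0 : ℝ × Y) η := by
      rw [← Prod.mk_zero_zero, ← ball_prod_same]; exact ⟨h1, h2⟩
    have := hball _ h3
    rw [ContinuousLinearEquiv.symm_apply_apply] at this
    exact ball_subset_closedBall this
  have hts : tsupport φ ⊆ closedBall 0 (δ / 2) := closure_minimal hsupp isClosed_closedBall
  have mΨ : Measurable Ψ := Ψ.continuous.measurable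
  have mΨs : Measurable Ψ.symm := Ψ.symm.continuous.measurable
  set ν := m.withDensity fun x => ENNReal.ofReal (φ x ^ 2) with hν
  have hνΨ : ν.map Ψ = ν1.prod ν2 := by
    have mb : Measurable fun x => ENNReal.ofReal (b x ^ 2) :=
      (hb.continuous.pow 2).measurable.ennreal_ofReal
    have mχ : Measurable fun x => ENNReal.ofReal (χ x ^ 2) :=
      (hχ.continuous.pow 2).measurable.ennreal_ofReal
    rw [hν1, hν2, prod_withDensity mb mχ]
    ext t ht
    have mm : Measurable fun a : ℝ × Y => ENNReal.ofReal (b a.1 ^ 2) * ENNReal.ofReal (χ a.2 ^ 2) :=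
      (mb.comp measurable_fst).mul (mχ.comp measurable_snd)
    rw [Measure.map_apply mΨ ht, withDensity_apply _ (mΨ ht), withDensity_apply _ ht,
      ← hΨ.setLIntegral_comp_preimage ht mm]
    congr 1
    funext x
    simp only [φ, mul_pow]
    rw [ENNReal.ofReal_mul (sq_nonneg _)]
  have hν' : (ν1.prod ν2).map Ψ.symm = ν := by
    rw [← hνΨ, Measure.map_map mΨs mΨ]
    have : (Ψ.symm ∘ Ψ : E → E) = id := funext fun x => Ψ.symm_apply_apply x
    rw [this, Measure.map_id]
  have lift : ∀ e : ℝ → ℝ, Measurable e →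
      Measurable (fun x : E => Ψ.symm (e (Ψ x).1, (Ψ x).2)) ∧
      ν.map (fun x : E => Ψ.symm (e (Ψ x).1, (Ψ x).2)) = ((ν1.map e).prod ν2).map Ψ.symm := by
    intro e me
    have m1 : Measurable (Prod.map e (id : Y → Y)) := me.prodMap measurable_id
    have : (fun x : E => Ψ.symm (e (Ψ x).1, (Ψ x).2)) = Ψ.symm ∘ (Prod.map e id) ∘ Ψ := rfl
    rw [this]
    refine ⟨mΨs.comp (m1.comp mΨ), ?_⟩
    rw [← Measure.map_map mΨs (m1.comp mΨ), ← Measure.map_map m1 mΨ, hνΨ,
      ← Measure.map_prod_map _ _ me measurable_id, Measure.map_id]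
  refine ⟨φ, hφ, fun x => mul_nonneg (hb0 _) (hχ0 _),
    HasCompactSupport.intro' (isCompact_closedBall 0 (δ / 2)) isClosed_closedBall
      (fun x hx => by by_contra hne; exact hx (hsupp hne)),
    hts.trans (closedBall_subset_ball (by linarith)), ?_,
    fun n x => Ψ.symm (EL n (Ψ x).1, (Ψ x).2), fun n x => Ψ.symm (ER n (Ψ x).1, (Ψ x).2),
    fun n x => Ψ.symm (Dm n (Ψ x).1, (Ψ x).2), fun n => (fun x => (Ψ x).1) ⁻¹' L n,
    fun n => (lift _ (mEL n)).1, fun n => (lift _ (mER n)).1, fun n => (lift _ (mD n)).1,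
    fun n => mΨ.fst (mL n), fun n => ?_, fun n x => ?_, fun x => ?_⟩
  · rw [← hν, ← hν']
    exact Measure.isProbabilityMeasure_map mΨs.aemeasurable
  · rw [← hν, (lift _ (mEL n)).2, (lift _ (mER n)).2, ← Measure.map_add _ _ mΨs,
      ← Measure.add_prod, ← hsp n, Measure.add_prod, Measure.map_add _ _ mΨs, hν']
  · obtain ⟨a1, a2, a3, a4⟩ := hid n (Ψ x).1
    simp only [ContinuousLinearEquiv.apply_symm_apply, mem_preimage, a1, a2, a3, a4, Prod.mk.eta,
      ContinuousLinearEquiv.symm_apply_apply, true_and, not_false_eq_true]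
  · have key : ∀ e : ℕ → ℝ, Tendsto e atTop (𝓝 (Ψ x).1) →
        Tendsto (fun n => Ψ.symm (e n, (Ψ x).2)) atTop (𝓝 x) := by
      intro e he
      have h1 : Tendsto (fun n => (e n, (Ψ x).2)) atTop (𝓝 (Ψ x)) :=
        he.prodMk_nhds tendsto_const_nhds
      have h2 := (Ψ.symm.continuous.tendsto (Ψ x)).comp h1
      rw [ContinuousLinearEquiv.symm_apply_apply] at h2
      exact h2
    exact ⟨key _ (hlim _).1, key _ (hlim _).2⟩

lemma exists_coord_equiv (n : ℕ) :
    ∃ Ψ : EuclideanSpace ℝ (Fin (n + 1)) ≃L[ℝ] ℝ × (Fin n → ℝ),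
      MeasurePreserving Ψ volume (volume.prod volume) := by
  refine ⟨(EuclideanSpace.equiv (Fin (n + 1)) ℝ).trans
    (Fin.consEquivL ℝ (fun _ : Fin (n + 1) => ℝ)).symm, ?_⟩
  have h1 := PiLp.volume_preserving_ofLp (Fin (n + 1))
  have h2 := volume_preserving_piFinSuccAbove (fun _ : Fin (n + 1) => ℝ) 0
  exact h2.comp h1

end Crest.Agent.R130
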